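import Mathlib.NumberTheory.Chebyshev

namespace Vale.Agent.P012

theorem two_pow_le_primeCounting (k : ℕ) (hk : 1 ≤ k) :
    2 ^ k ≤ 2 * k * Nat.primeCounting (2 ^ k) := by
  have h := Chebyshev.pi_ge (2 ^ k)
  have hlog2 : 0 < Real.log 2 := Real.log_pos (by norm_num)
  have hk0 : (0 : ℝ) < k := by exact_mod_cast hk
  have h1 : Real.log ((2 ^ k : ℕ) : ℝ) = k * Real.log 2 := by
    push_cast; rw [Real.log_pow]
  have h2 : Real.log (((2 ^ k : ℕ) : ℝ) + 1) ≤ (k + 1) * Real.log 2 := by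
    have : ((2 ^ k : ℕ) : ℝ) + 1 ≤ 2 ^ (k + 1) := by
      push_cast
      rw [pow_succ]
      have : (1 : ℝ) ≤ 2 ^ k := one_le_pow₀ (by norm_num)
      linarith
    calc Real.log (((2 ^ k : ℕ) : ℝ) + 1) ≤ Real.log ((2 : ℝ) ^ (k + 1)) :=
          Real.log_le_log (by positivity) this
      _ = (k + 1) * Real.log 2 := by rw [Real.log_pow]; push_cast; ring
  rw [h1, div_le_iff₀ (by positivity)] at h
  have h3 : ((2 ^ k : ℕ) : ℝ) - (k + 1) ≤ k * (Nat.primeCounting (2 ^ k) : ℝ) := by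
    have : (((2 ^ k : ℕ) : ℝ) - (k + 1)) * Real.log 2 ≤
        (k * (Nat.primeCounting (2 ^ k) : ℝ)) * Real.log 2 := by nlinarith
    exact le_of_mul_le_mul_right this hlog2
  have h4 : 2 ^ k ≤ k * Nat.primeCounting (2 ^ k) + (k + 1) := by
    have : ((2 ^ k : ℕ) : ℝ) ≤ ((k * Nat.primeCounting (2 ^ k) + (k + 1) : ℕ) : ℝ) := by
      push_cast at h3 ⊢
      linarith
    exact_mod_cast this
  rcases Nat.lt_or_ge k 3 with hk3 | hk3
  · interval_cases k
    · have : Nat.primeCounting (2 ^ 1) = 1 := by decide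
      rw [this]; norm_num
    · have : Nat.primeCounting (2 ^ 2) = 2 := by decide
      rw [this]; norm_num
  · have h5 : 2 * (k + 1) ≤ 2 ^ k := by
      clear h h1 h2 h3 h4 hk0
      induction k, hk3 using Nat.le_induction with
      | base => norm_num
      | succ n hn ih =>
        have := ih (by omega)
        rw [pow_succ]; omega
    have : 2 * k * Nat.primeCounting (2 ^ k) = 2 * (k * Nat.primeCounting (2 ^ k)) := by ring
    omega

end Vale.Agent.P012
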