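import Mathlib.Data.ZMod.Basic
import Mathlib.Algebra.Field.ZMod
import Mathlib.Algebra.Order.Chebyshev
import Mathlib.Tactic

namespace Vale.Agent.P012

open Finset

/-- number of representations -/
def rr (p : ℕ) (E : Finset (ZMod p)) (u x : ZMod p) : ℕ :=
  ((E ×ˢ E).filter (fun e => e.1 + u * e.2 = x)).card

theorem sum_rr (p : ℕ) [Fact p.Prime] (E : Finset (ZMod p)) (u : ZMod p) :
    ∑ x : ZMod p, rr p E u x = E.card ^ 2 := by
  unfold rr
  rw [← Finset.card_eq_sum_card_fiberwise (fun e _ => Finset.mem_univ (e.1 + u * e.2)),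
    Finset.card_product, sq]

theorem sum_rr_sq (p : ℕ) [Fact p.Prime] (E : Finset (ZMod p)) (u : ZMod p) :
    ∑ x : ZMod p, rr p E u x ^ 2 =
      (((E ×ˢ E) ×ˢ (E ×ˢ E)).filter
        (fun e => e.1.1 + u * e.1.2 = e.2.1 + u * e.2.2)).card := by
  have h : ∀ x : ZMod p, rr p E u x ^ 2 =
      ((((E ×ˢ E) ×ˢ (E ×ˢ E)).filter
        (fun e => e.1.1 + u * e.1.2 = e.2.1 + u * e.2.2)).filter
        (fun e => e.1.1 + u * e.1.2 = x)).card := by
    intro x
    unfold rr
    rw [sq, ← Finset.card_product]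
    congr 1
    ext ⟨⟨a, b⟩, ⟨c, d⟩⟩
    simp only [Finset.mem_product, Finset.mem_filter]
    constructor
    · rintro ⟨⟨⟨h1, h2⟩, h3⟩, ⟨⟨h4, h5⟩, h6⟩⟩
      exact ⟨⟨⟨⟨h1, h2⟩, ⟨h4, h5⟩⟩, by rw [h3, h6]⟩, h3⟩
    · rintro ⟨⟨⟨⟨h1, h2⟩, ⟨h4, h5⟩⟩, h7⟩, h3⟩
      exact ⟨⟨⟨h1, h2⟩, h3⟩, ⟨⟨h4, h5⟩, by rw [← h7, h3]⟩⟩
  rw [Finset.sum_congr rfl (fun x _ => h x)]
  rw [← Finset.card_eq_sum_card_fiberwise (fun e _ => Finset.mem_univ (e.1.1 + u * e.1.2))]

/-- The number of `u` for which a given quadruple is a collision. -/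
theorem count_u (p : ℕ) [Fact p.Prime] (a b c d : ZMod p) :
    ((Finset.univ : Finset (ZMod p)).filter (fun u => a + u * b = c + u * d)).card ≤
      1 + (if (a, b) = (c, d) then p else 0) := by
  by_cases h : b = d
  · by_cases h2 : a = c
    · subst h; subst h2
      simp only [if_true, Finset.filter_true, Finset.card_univ, ZMod.card]
      omega
    · have : ((Finset.univ : Finset (ZMod p)).filter (fun u => a + u * b = c + u * d)) = ∅ := by
        apply Finset.filter_eq_empty_iff.mpr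
        intro u _ hu
        rw [h] at hu
        exact h2 (add_right_cancel hu)
      rw [this]; simp
  · have : ((Finset.univ : Finset (ZMod p)).filter (fun u => a + u * b = c + u * d)).card ≤ 1 := by
      rw [Finset.card_le_one]
      intro u hu v hv
      simp only [Finset.mem_filter, Finset.mem_univ, true_and] at hu hv
      have h3 : (u - v) * (b - d) = 0 := by
        have : u * b - u * d = v * b - v * d := by
          have e1 : u * b - u * d = c - a := by
            rw [sub_eq_sub_iff_add_eq_add, add_comm (u * b) a, hu]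
          have e2 : v * b - v * d = c - a := by
            rw [sub_eq_sub_iff_add_eq_add, add_comm (v * b) a, hv]
          rw [e1, e2]
        linear_combination this
      rcases mul_eq_zero.mp h3 with h4 | h4
      · exact sub_eq_zero.mp h4
      · exact absurd (sub_eq_zero.mp h4) h
    omega

theorem total_energy (p : ℕ) [Fact p.Prime] (E : Finset (ZMod p)) :
    ∑ u : ZMod p, ∑ x : ZMod p, rr p E u x ^ 2 ≤ E.card ^ 4 + p * E.card ^ 2 := by
  rw [Finset.sum_congr rfl (fun u _ => sum_rr_sq p E u)]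
  have h1 : ∀ u : ZMod p, (((E ×ˢ E) ×ˢ (E ×ˢ E)).filter
        (fun e => e.1.1 + u * e.1.2 = e.2.1 + u * e.2.2)).card =
      ∑ e ∈ ((E ×ˢ E) ×ˢ (E ×ˢ E)), if e.1.1 + u * e.1.2 = e.2.1 + u * e.2.2 then 1 else 0 := by
    intro u
    rw [Finset.card_filter]
  rw [Finset.sum_congr rfl (fun u _ => h1 u), Finset.sum_comm]
  have h2 : ∀ e ∈ ((E ×ˢ E) ×ˢ (E ×ˢ E)),
      (∑ u : ZMod p, if e.1.1 + u * e.1.2 = e.2.1 + u * e.2.2 then 1 else 0) ≤
      1 + (if e.1 = e.2 then p else 0) := by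
    intro e _
    rw [← Finset.card_filter]
    exact count_u p e.1.1 e.1.2 e.2.1 e.2.2
  refine (Finset.sum_le_sum h2).trans ?_
  rw [Finset.sum_add_distrib]
  have h3 : ∑ e ∈ ((E ×ˢ E) ×ˢ (E ×ˢ E)), (if e.1 = e.2 then p else 0) = p * E.card ^ 2 := by
    rw [Finset.sum_product]
    have : ∀ x ∈ E ×ˢ E, (∑ y ∈ E ×ˢ E, if (x, y).1 = (x, y).2 then p else 0) = p := by
      intro x hx
      simp only
      rw [Finset.sum_ite_eq]
      simp [hx]
    rw [Finset.sum_congr rfl this]
    simp [Finset.card_product]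
    ring
  rw [h3]
  simp only [Finset.sum_const, smul_eq_mul, mul_one, Finset.card_product]
  apply le_of_eq
  ring

theorem cover (p : ℕ) [Fact p.Prime] (A E : Finset (ZMod p)) (h : p ^ 2 < A.card * E.card ^ 2) :
    ∃ u ∈ A, ∀ x : ZMod p, ∃ e₁ ∈ E, ∃ e₂ ∈ E, ∃ e₃ ∈ E, ∃ e₄ ∈ E,
      x = (e₁ + u * e₂) + (e₃ + u * e₄) := by
  have hp : 0 < p := (Fact.out : p.Prime).pos
  -- the support
  let X : ZMod p → Finset (ZMod p) := fun u => (E ×ˢ E).image (fun e => e.1 + u * e.2)
  have hX : ∀ u, E.card ^ 4 ≤ (X u).card * ∑ x : ZMod p, rr p E u x ^ 2 := by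
    intro u
    have h1 : ∑ x ∈ X u, rr p E u x = E.card ^ 2 := by
      rw [← sum_rr p E u]
      apply Finset.sum_subset (Finset.subset_univ _)
      intro x _ hx
      unfold rr
      rw [Finset.card_eq_zero, Finset.filter_eq_empty_iff]
      intro e he hex
      exact hx (Finset.mem_image.mpr ⟨e, he, hex⟩)
    have h2 := sq_sum_le_card_mul_sum_sq (s := X u) (f := fun x => (rr p E u x : ℚ))
    have h3 : ((E.card : ℚ) ^ 2) ^ 2 ≤ (X u).card * ∑ x ∈ X u, (rr p E u x : ℚ) ^ 2 := by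
      rw [← Nat.cast_pow E.card 2, ← h1]
      push_cast
      exact h2
    have h4 : ∑ x ∈ X u, (rr p E u x) ^ 2 ≤ ∑ x : ZMod p, rr p E u x ^ 2 :=
      Finset.sum_le_sum_of_subset (Finset.subset_univ _)
    have h5 : (E.card ^ 2) ^ 2 ≤ (X u).card * ∑ x ∈ X u, (rr p E u x) ^ 2 := by
      exact_mod_cast h3
    calc E.card ^ 4 = (E.card ^ 2) ^ 2 := by ring
      _ ≤ (X u).card * ∑ x ∈ X u, (rr p E u x) ^ 2 := h5
      _ ≤ (X u).card * ∑ x : ZMod p, rr p E u x ^ 2 := Nat.mul_le_mul_left _ h4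
  -- each energy is at least the average
  have hlow : ∀ u, E.card ^ 4 ≤ p * ∑ x : ZMod p, rr p E u x ^ 2 := by
    intro u
    refine (hX u).trans (Nat.mul_le_mul_right _ ?_)
    calc (X u).card ≤ (Finset.univ : Finset (ZMod p)).card := Finset.card_le_card (Finset.subset_univ _)
      _ = p := by rw [Finset.card_univ, ZMod.card]
  -- some `u ∈ A` has small energy
  have hE0 : 0 < E.card := by
    rcases Nat.eq_zero_or_pos E.card with h0 | h0
    · rw [h0] at h; simp at h
    · exact h0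
  obtain ⟨u, huA, hu⟩ : ∃ u ∈ A, p < 2 * (X u).card := by
    by_contra hcon
    push Not at hcon
    -- for all u ∈ A: energy ≥ 2 |E|^4 / p
    have h1 : ∀ u ∈ A, 2 * E.card ^ 4 ≤ p * ∑ x : ZMod p, rr p E u x ^ 2 := by
      intro u hu
      calc 2 * E.card ^ 4 ≤ 2 * ((X u).card * ∑ x : ZMod p, rr p E u x ^ 2) :=
            Nat.mul_le_mul_left _ (hX u)
        _ = (2 * (X u).card) * ∑ x : ZMod p, rr p E u x ^ 2 := by ring
        _ ≤ p * ∑ x : ZMod p, rr p E u x ^ 2 := Nat.mul_le_mul_right _ (hcon u hu)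
    have h2 : ∑ u : ZMod p, (E.card ^ 4 + if u ∈ A then E.card ^ 4 else 0) ≤
        ∑ u : ZMod p, p * ∑ x : ZMod p, rr p E u x ^ 2 := by
      apply Finset.sum_le_sum
      intro u _
      by_cases hu : u ∈ A
      · rw [if_pos hu]
        have := h1 u hu
        omega
      · rw [if_neg hu]
        have := hlow u
        omega
    rw [← Finset.mul_sum, Finset.sum_add_distrib] at h2
    have h3 := total_energy p E
    have h4 : ∑ u : ZMod p, E.card ^ 4 = p * E.card ^ 4 := by
      rw [Finset.sum_const, Finset.card_univ, ZMod.card, smul_eq_mul]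
    have h5 : (∑ u : ZMod p, if u ∈ A then E.card ^ 4 else 0) = A.card * E.card ^ 4 := by
      rw [Finset.sum_ite_mem, Finset.univ_inter, Finset.sum_const, smul_eq_mul]
    rw [h4, h5] at h2
    have h6 := Nat.mul_le_mul_left p h3
    have h7 : A.card * E.card ^ 4 ≤ p ^ 2 * E.card ^ 2 := by nlinarith
    have h8 : (A.card * E.card ^ 2) * E.card ^ 2 ≤ p ^ 2 * E.card ^ 2 := by
      calc (A.card * E.card ^ 2) * E.card ^ 2 = A.card * E.card ^ 4 := by ring
        _ ≤ _ := h7
    have h9 := Nat.le_of_mul_le_mul_right h8 (by positivity)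
    omega
  refine ⟨u, huA, ?_⟩
  intro x
  -- pigeonhole
  have hinter : (X u ∩ (X u).image (fun y => x - y)).Nonempty := by
    rw [← Finset.card_pos]
    by_contra h0
    push Not at h0
    have h1 := Finset.card_union_add_card_inter (X u) ((X u).image (fun y => x - y))
    have h2 : ((X u).image (fun y => x - y)).card = (X u).card :=
      Finset.card_image_of_injective _ (fun a b hab => by simpa using hab)
    have h3 : (X u ∪ (X u).image (fun y => x - y)).card ≤ p := by
      calc _ ≤ (Finset.univ : Finset (ZMod p)).card := Finset.card_le_card (Finset.subset_univ _)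
        _ = p := by rw [Finset.card_univ, ZMod.card]
    omega
  obtain ⟨y, hy⟩ := hinter
  obtain ⟨hy1, hy2⟩ := Finset.mem_inter.mp hy
  obtain ⟨z, hz1, hz2⟩ := Finset.mem_image.mp hy2
  obtain ⟨⟨e₁, e₂⟩, he, rfl⟩ := Finset.mem_image.mp hy1
  obtain ⟨⟨e₃, e₄⟩, he', rfl⟩ := Finset.mem_image.mp hz1
  rw [Finset.mem_product] at he he'
  refine ⟨e₁, he.1, e₂, he.2, e₃, he'.1, e₄, he'.2, ?_⟩
  simp only at hz2
  rw [← hz2]; ring

end Vale.Agent.P012
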