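import Mathlib

namespace Vale.Agent.P012

open Finset

/-- A nonzero natural number less than `2 ^ z` has at most `z` prime factors. -/
theorem card_primeFactors_le_of_lt (d z : ℕ) (hd : d ≠ 0) (hz : d < 2 ^ z) :
    d.primeFactors.card ≤ z := by
  have h1 : 2 ^ d.primeFactors.card ≤ ∏ p ∈ d.primeFactors, p :=
    Finset.pow_card_le_prod _ _ _ (fun p hp => (Nat.prime_of_mem_primeFactors hp).two_le)
  have h2 : ∏ p ∈ d.primeFactors, p ≤ d :=
    Nat.le_of_dvd (Nat.pos_of_ne_zero hd) (Nat.prod_primeFactors_dvd d)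
  have h3 : 2 ^ d.primeFactors.card < 2 ^ z := lt_of_le_of_lt (h1.trans h2) hz
  exact ((Nat.pow_lt_pow_iff_right (by norm_num : 1 < 2)).1 h3).le

/-- The primes modulo which two distinct numbers less than `2 ^ z` agree are at most `z`. -/
theorem card_coll_primes (P : Finset ℕ) (hP : ∀ q ∈ P, q.Prime) (z s s' : ℕ)
    (hs : s < 2 ^ z) (hs' : s' < 2 ^ z) (hne : s ≠ s') :
    (P.filter (fun q => s % q = s' % q)).card ≤ z := by
  wlog hlt : s < s' generalizing s s'
  · have hlt' : s' < s := lt_of_le_of_ne (not_lt.1 hlt) (Ne.symm hne)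
    have := this s' s hs' hs (Ne.symm hne) hlt'
    have he : P.filter (fun q => s % q = s' % q) = P.filter (fun q => s' % q = s % q) := by
      apply Finset.filter_congr
      intro q _
      exact eq_comm
    rw [he]
    exact this
  · refine le_trans (Finset.card_le_card ?_)
      (card_primeFactors_le_of_lt (s' - s) z (by omega) (by omega))
    intro q hq
    rw [Finset.mem_filter] at hq
    rw [Nat.mem_primeFactors]
    exact ⟨hP q hq.1, (Nat.modEq_iff_dvd' hlt.le).1 hq.2, by omega⟩

/-- Cauchy-Schwarz: number of residues versus number of collisions. -/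
theorem card_sq_le_residues (S : Finset ℕ) (q : ℕ) :
    S.card ^ 2 ≤ (S.image (fun s => s % q)).card *
      (S.card + ((S ×ˢ S).filter (fun x => x.1 ≠ x.2 ∧ x.1 % q = x.2 % q)).card) := by
  classical
  have h1 : S.card = ∑ c ∈ S.image (fun s => s % q), (S.filter (fun s => s % q = c)).card :=
    Finset.card_eq_sum_card_image _ _
  have h2 : ∑ c ∈ S.image (fun s => s % q), (S.filter (fun s => s % q = c)).card ^ 2
      = ((S ×ˢ S).filter (fun x => x.1 % q = x.2 % q)).card := by
    rw [Finset.card_eq_sum_card_fiberwise (f := fun x : ℕ × ℕ => x.1 % q)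
      (t := S.image (fun s => s % q))]
    · apply Finset.sum_congr rfl
      intro c _
      rw [sq, ← Finset.card_product]
      congr 1
      ext ⟨a, b⟩
      simp only [Finset.mem_product, Finset.mem_filter]
      constructor
      · rintro ⟨⟨ha, hac⟩, ⟨hb, hbc⟩⟩
        exact ⟨⟨⟨ha, hb⟩, by rw [hac, hbc]⟩, hac⟩
      · rintro ⟨⟨⟨ha, hb⟩, hab⟩, hac⟩
        exact ⟨⟨ha, hac⟩, ⟨hb, by rw [← hab, hac]⟩⟩
    · intro x hx
      have hx' := (Finset.mem_filter.1 hx).1
      rw [Finset.mem_product] at hx'
      exact Finset.mem_image_of_mem _ hx'.1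
  have h3 : ((S ×ˢ S).filter (fun x => x.1 % q = x.2 % q)).card ≤
      S.card + ((S ×ˢ S).filter (fun x => x.1 ≠ x.2 ∧ x.1 % q = x.2 % q)).card := by
    have : (S ×ˢ S).filter (fun x => x.1 % q = x.2 % q) ⊆
        S.image (fun s => (s, s)) ∪
          (S ×ˢ S).filter (fun x => x.1 ≠ x.2 ∧ x.1 % q = x.2 % q) := by
      rintro ⟨a, b⟩ hx
      rw [Finset.mem_filter, Finset.mem_product] at hx
      rw [Finset.mem_union]
      by_cases hab : a = b
      · left
        rw [Finset.mem_image]
        exact ⟨a, hx.1.1, by rw [hab]⟩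
      · right
        rw [Finset.mem_filter, Finset.mem_product]
        exact ⟨hx.1, hab, hx.2⟩
    refine (Finset.card_le_card this).trans ((Finset.card_union_le _ _).trans ?_)
    exact Nat.add_le_add_right Finset.card_image_le _
  calc S.card ^ 2
      = (∑ c ∈ S.image (fun s => s % q), (S.filter (fun s => s % q = c)).card) ^ 2 := by rw [← h1]
    _ ≤ (S.image (fun s => s % q)).card *
        ∑ c ∈ S.image (fun s => s % q), (S.filter (fun s => s % q = c)).card ^ 2 :=
        sq_sum_le_card_mul_sum_sq
    _ ≤ _ := by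
        rw [h2]
        exact Nat.mul_le_mul_left _ h3

theorem many_good_primes (t z : ℕ) (ht : 1 ≤ t) (S : Finset ℕ) (hS : ∀ s ∈ S, s < 2 ^ z)
    (hcard : 2 ^ t ≤ S.card) (hpi : 2 ^ t ≤ 2 * t * Nat.primeCounting (2 ^ t)) :
    2 ^ t ≤ 4 * t * ((Finset.range (2 ^ t + 1)).filter (fun q => q.Prime ∧
      2 ^ t ≤ (S.image (fun s => s % q)).card * (1 + 4 * t * z))).card := by
  classical
  set P : Finset ℕ := (Finset.range (2 ^ t + 1)).filter Nat.Prime with hPdef
  have hPcard : P.card = Nat.primeCounting (2 ^ t) := by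
    rw [Nat.primeCounting, Nat.primeCounting', Nat.count_eq_card_filter_range]
  have hPprime : ∀ q ∈ P, q.Prime := fun q hq => (Finset.mem_filter.1 hq).2
  set coll : ℕ → ℕ := fun q =>
    ((S ×ˢ S).filter (fun x => x.1 ≠ x.2 ∧ x.1 % q = x.2 % q)).card with hcoll
  set good : ℕ → Prop := fun q => 2 ^ t ≤ (S.image (fun s => s % q)).card * (1 + 4 * t * z)
    with hgood
  have h2t : 2 ≤ 2 ^ t := by
    calc 2 = 2 ^ 1 := by norm_num
      _ ≤ 2 ^ t := Nat.pow_le_pow_right (by norm_num) ht
  -- the case `z = 0` is impossible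
  have hz : 1 ≤ z := by
    by_contra hz0
    have hz0' : z = 0 := by omega
    subst hz0'
    have : S ⊆ {0} := by
      intro s hs
      have := hS s hs
      rw [Finset.mem_singleton]
      omega
    have := Finset.card_le_card this
    rw [Finset.card_singleton] at this
    omega
  have hSpos : 0 < S.card := by omega
  -- total number of collisions
  have htotal : ∑ q ∈ P, coll q ≤ z * S.card ^ 2 := by
    have h1 : ∑ q ∈ P, coll q = ∑ x ∈ (S ×ˢ S).filter (fun x => x.1 ≠ x.2),
        (P.filter (fun q => x.1 % q = x.2 % q)).card := by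
      simp only [hcoll, Finset.card_filter]
      rw [Finset.sum_comm' (s := P) (t := fun _ => (S ×ˢ S))
        (t' := (S ×ˢ S)) (s' := fun _ => P) (by simp [and_comm])]
      rw [Finset.sum_filter]
      apply Finset.sum_congr rfl
      intro x _
      by_cases hx : x.1 ≠ x.2
      · simp [hx]
      · simp [hx]
    rw [h1]
    calc ∑ x ∈ (S ×ˢ S).filter (fun x => x.1 ≠ x.2), (P.filter (fun q => x.1 % q = x.2 % q)).card
        ≤ ∑ x ∈ (S ×ˢ S).filter (fun x => x.1 ≠ x.2), z := by
          apply Finset.sum_le_sum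
          intro x hx
          rw [Finset.mem_filter, Finset.mem_product] at hx
          exact card_coll_primes P hPprime z x.1 x.2 (hS _ hx.1.1) (hS _ hx.1.2) hx.2
      _ = ((S ×ˢ S).filter (fun x => x.1 ≠ x.2)).card * z := by
          rw [Finset.sum_const, smul_eq_mul]
      _ ≤ (S.card * S.card) * z := by
          apply Nat.mul_le_mul_right
          rw [← Finset.card_product]
          exact Finset.card_filter_le _ _
      _ = z * S.card ^ 2 := by ring
  -- bad primes have many collisions
  have hbad : ∀ q ∈ P.filter (fun q => ¬ good q), 4 * t * z * S.card ^ 2 ≤ 2 ^ t * coll q := by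
    intro q hq
    have hq' : ¬ (2 ^ t ≤ (S.image (fun s => s % q)).card * (1 + 4 * t * z)) :=
      (Finset.mem_filter.1 hq).2
    have hcs := card_sq_le_residues S q
    have hcs' : S.card ^ 2 ≤ (S.image (fun s => s % q)).card * (S.card + coll q) := hcs
    have hlt : (S.image (fun s => s % q)).card * (1 + 4 * t * z) ≤ 2 ^ t := by omega
    have h5 : (1 + 4 * t * z) * S.card ^ 2 ≤ 2 ^ t * (S.card + coll q) := by
      calc (1 + 4 * t * z) * S.card ^ 2
          ≤ (1 + 4 * t * z) * ((S.image (fun s => s % q)).card * (S.card + coll q)) :=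
            Nat.mul_le_mul_left _ hcs'
        _ = ((S.image (fun s => s % q)).card * (1 + 4 * t * z)) * (S.card + coll q) := by ring
        _ ≤ 2 ^ t * (S.card + coll q) := Nat.mul_le_mul_right _ hlt
    have h6 : 2 ^ t * S.card ≤ S.card ^ 2 := by
      rw [sq]
      exact Nat.mul_le_mul_right _ hcard
    nlinarith [h5, h6]
  have hbadcard : 4 * t * (P.filter (fun q => ¬ good q)).card ≤ 2 ^ t := by
    have h7 : (P.filter (fun q => ¬ good q)).card * (4 * t * z * S.card ^ 2) ≤
        2 ^ t * (z * S.card ^ 2) := by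
      calc (P.filter (fun q => ¬ good q)).card * (4 * t * z * S.card ^ 2)
          = ∑ q ∈ P.filter (fun q => ¬ good q), (4 * t * z * S.card ^ 2) := by
            rw [Finset.sum_const, smul_eq_mul]
        _ ≤ ∑ q ∈ P.filter (fun q => ¬ good q), 2 ^ t * coll q := Finset.sum_le_sum hbad
        _ = 2 ^ t * ∑ q ∈ P.filter (fun q => ¬ good q), coll q := by rw [Finset.mul_sum]
        _ ≤ 2 ^ t * ∑ q ∈ P, coll q := by
            apply Nat.mul_le_mul_left
            exact Finset.sum_le_sum_of_subset (Finset.filter_subset _ _)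
        _ ≤ 2 ^ t * (z * S.card ^ 2) := Nat.mul_le_mul_left _ htotal
    have hpos : 0 < z * S.card ^ 2 := Nat.mul_pos hz (pow_pos hSpos 2)
    have h8 : 4 * t * (P.filter (fun q => ¬ good q)).card * (z * S.card ^ 2) ≤
        2 ^ t * (z * S.card ^ 2) := by
      calc 4 * t * (P.filter (fun q => ¬ good q)).card * (z * S.card ^ 2)
          = (P.filter (fun q => ¬ good q)).card * (4 * t * z * S.card ^ 2) := by ring
        _ ≤ _ := h7
    exact Nat.le_of_mul_le_mul_right h8 hpos
  have hsplit : (P.filter good).card + (P.filter (fun q => ¬ good q)).card = P.card :=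
    Finset.card_filter_add_card_filter_not _
  have hfinal : (Finset.range (2 ^ t + 1)).filter (fun q => q.Prime ∧
      2 ^ t ≤ (S.image (fun s => s % q)).card * (1 + 4 * t * z)) = P.filter good := by
    rw [hPdef, Finset.filter_filter]
  rw [hfinal]
  have h9 : 4 * t * P.card = 4 * t * (P.filter good).card +
      4 * t * (P.filter (fun q => ¬ good q)).card := by
    rw [← hsplit]; ring
  have h10 : 2 * 2 ^ t ≤ 4 * t * P.card := by
    rw [hPcard]
    calc 2 * 2 ^ t ≤ 2 * (2 * t * Nat.primeCounting (2 ^ t)) := Nat.mul_le_mul_left _ hpi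
      _ = 4 * t * Nat.primeCounting (2 ^ t) := by ring
  omega

end Vale.Agent.P012
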