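import Vale.Agent.P012.Rep

namespace Vale.Agent.P012

theorem iterate_step (P c k N0 : ℕ) (hP : 2 ≤ P)
    (cov : ∀ x : ℕ, ∃ y : ℕ, y ≡ x [MOD P] ∧ y ≤ c * P ∧ Rep k N0 y) :
    ∀ J s : ℕ, 2 * c * P ^ J ≤ s + 2 * c → ∃ s' : ℕ, s' * P ^ J ≤ s ∧
      ∀ k' N' : ℕ, N0 ∣ N' → 0 < N' → Rep k' N' s' → Rep (J * k + k') (N' * P ^ J) s := by
  intro J
  induction J with
  | zero =>
    intro s _
    refine ⟨s, by simp, ?_⟩
    intro k' N' _ _ h
    simpa using h
  | succ J ih =>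
    intro s hs
    obtain ⟨y, hy1, hy2, hy3⟩ := cov s
    have hPJ : 1 ≤ P ^ J := Nat.one_le_pow _ _ (by omega)
    have hcP : c * P ≤ 2 * c * P ^ (J + 1) - 2 * c + 0 := by
      have h1 : 2 * c * P ≤ 2 * c * P ^ (J + 1) := by
        apply Nat.mul_le_mul_left
        calc P = P ^ 1 := (pow_one P).symm
          _ ≤ P ^ (J + 1) := Nat.pow_le_pow_right (by omega) (by omega)
      have h2 : 2 * c ≤ c * P := by
        rw [mul_comm 2 c]; exact Nat.mul_le_mul_left _ hP
      have h3 : 2 * c * P = c * P + c * P := by ring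
      omega
    have hys : y ≤ s := by omega
    have hdvd : P ∣ s - y := (Nat.modEq_iff_dvd' hys).mp hy1
    obtain ⟨s1, hs1⟩ := hdvd
    have hs : s = y + P * s1 := by omega
    have h4 : 2 * c * P ^ J ≤ s1 + 2 * c := by
      have h5 : P * (2 * c * P ^ J) ≤ P * (s1 + 2 * c) := by
        have e1 : P * (2 * c * P ^ J) = 2 * c * P ^ (J + 1) := by rw [pow_succ]; ring
        have e2 : P * (s1 + 2 * c) = P * s1 + 2 * (c * P) := by ring
        have h2 : 2 * c ≤ c * P := by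
          rw [mul_comm 2 c]; exact Nat.mul_le_mul_left _ hP
        rw [e1, e2]
        omega
      exact Nat.le_of_mul_le_mul_left h5 (by omega)
    obtain ⟨s', hs'1, hs'2⟩ := ih s1 h4
    refine ⟨s', ?_, ?_⟩
    · calc s' * P ^ (J + 1) = P * (s' * P ^ J) := by rw [pow_succ]; ring
        _ ≤ P * s1 := Nat.mul_le_mul_left _ hs'1
        _ ≤ s := by omega
    · intro k' N' hN0 hN' hrep
      have hR := hs'2 k' N' hN0 hN' hrep
      have hR2 := hR.mul_both (c := P) (by omega)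
      have hy4 : Rep k (N' * P ^ J * P) y := by
        apply hy3.of_dvd_modulus
        · exact Dvd.dvd.mul_right (Dvd.dvd.mul_right hN0 _) _
        · have : 0 < P := by omega
          positivity
      have h6 := hy4.add hR2
      have e3 : N' * P ^ J * P = N' * P ^ (J + 1) := by rw [pow_succ]; ring
      rw [e3, ← hs] at h6
      refine h6.mono ?_
      have : (J + 1) * k = J * k + k := by ring
      omega

/-- Every numerator up to `P ^ J` is good. -/
theorem rep_all (P c k N0 h J : ℕ) (hP : 2 ≤ P) (hN0 : 0 < N0) (hc : 0 < c)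
    (hh : 4 * c < 2 ^ (h + 1))
    (cov : ∀ x : ℕ, ∃ y : ℕ, y ≡ x [MOD P] ∧ y ≤ c * P ∧ Rep k N0 y) :
    ∀ s : ℕ, s ≤ P ^ J → Rep (J * k + (h + 1)) (N0 * 2 ^ h * P ^ J) s := by
  intro s hs
  rcases Nat.eq_zero_or_pos s with h0 | h0
  · subst h0; exact Rep.zero _ _
  have hPJ : 0 < P ^ J := Nat.pow_pos (by omega)
  -- find a multiple `s * Y` in `[2 c P^J, 4 c P^J]`
  set X := 2 * c * P ^ J with hX
  have hX0 : 0 < X := by positivity
  have hsX : s ≤ X := by
    calc s ≤ P ^ J := hs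
      _ ≤ 2 * c * P ^ J := Nat.le_mul_of_pos_left _ (by omega)
  obtain ⟨Y, hY0, hY1, hY2⟩ : ∃ Y : ℕ, 0 < Y ∧ X ≤ s * Y ∧ s * Y ≤ 2 * X := by
    refine ⟨X / s + 1, Nat.succ_pos _, ?_, ?_⟩
    · have := Nat.div_add_mod X s
      have h2 := Nat.mod_lt X h0
      rw [mul_add, mul_one]
      omega
    · have h3 : s * (X / s) ≤ X := Nat.mul_div_le X s
      rw [mul_add, mul_one]
      omega
  obtain ⟨s', hs'1, hs'2⟩ := iterate_step P c k N0 hP cov J (s * Y) (by omega)
  have hs'3 : s' < 2 ^ (h + 1) := by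
    have h5 : s' * P ^ J ≤ (4 * c) * P ^ J := by
      calc s' * P ^ J ≤ s * Y := hs'1
        _ ≤ 2 * X := hY2
        _ = (4 * c) * P ^ J := by rw [hX]; ring
    exact lt_of_le_of_lt (Nat.le_of_mul_le_mul_right h5 hPJ) hh
  have hb := Rep.binary N0 hN0 h s' hs'3
  have := hs'2 (h + 1) (N0 * 2 ^ h) (Dvd.intro _ rfl) (by positivity) hb
  exact Rep.of_mul hY0 this

/-- From good numerators to all fractions `a / b` in a range. -/
theorem uf_of_rep (K N X : ℕ) (hN : 0 < N) (hrep : ∀ s : ℕ, s ≤ X → Rep K N s)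
    (a b : ℕ) (hb : 0 < b) (hbX : b ≤ X) (ha : a * N ≤ b * X) :
    UF (2 * K) ((a : ℚ) / b) := by
  set q := a * N / b with hq
  set r := a * N % b with hr
  have hqX : q ≤ X := by
    rw [hq]
    calc a * N / b ≤ b * X / b := Nat.div_le_div_right ha
      _ = X := Nat.mul_div_cancel_left X hb
  have hrX : r ≤ X := (Nat.mod_lt _ hb).le.trans hbX
  have h1 := hrep q hqX 1 one_pos
  have h2 := hrep r hrX b hb
  have h3 := h1.add h2
  have hb' : (b : ℚ) ≠ 0 := by exact_mod_cast hb.ne'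
  have hN' : (N : ℚ) ≠ 0 := by exact_mod_cast hN.ne'
  have e : (b : ℚ) * q + r = a * N := by
    have := Nat.div_add_mod (a * N) b
    exact_mod_cast this
  have e2 : (a : ℚ) / b = (q : ℚ) / ((N : ℚ) * ((1 : ℕ) : ℚ)) + (r : ℚ) / ((N : ℚ) * b) := by
    have : (a : ℚ) = (b * q + r) / N := by rw [e]; field_simp
    rw [this]
    push_cast
    field_simp
  rw [e2, two_mul]
  exact h3

end Vale.Agent.P012
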