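import Vale.Agent.P012.Rep

namespace Vale.Agent.P012

/-- The numbers `∑_{i<j} Q^i e_i` with `e_i ∈ E`. -/
def sums (Q : ℕ) (E : Finset ℕ) : ℕ → Finset ℕ
  | 0 => {0}
  | j + 1 => (E ×ˢ sums Q E j).image (fun p => p.1 + Q * p.2)

theorem mem_sums_succ {Q : ℕ} {E : Finset ℕ} {j s : ℕ} :
    s ∈ sums Q E (j + 1) ↔ ∃ e ∈ E, ∃ t ∈ sums Q E j, e + Q * t = s := by
  simp only [sums, Finset.mem_image, Finset.mem_product, Prod.exists]
  constructor
  · rintro ⟨a, b, ⟨ha, hb⟩, h⟩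
    exact ⟨a, ha, b, hb, h⟩
  · rintro ⟨a, ha, b, hb, h⟩
    exact ⟨a, b, ⟨ha, hb⟩, h⟩

theorem card_sums {Q : ℕ} (hQ : 0 < Q) {E : Finset ℕ}
    (hE : Set.InjOn (fun e : ℕ => e % Q) (E : Set ℕ)) (j : ℕ) :
    (sums Q E j).card = E.card ^ j := by
  induction j with
  | zero => simp [sums]
  | succ j ih =>
    rw [sums, Finset.card_image_of_injOn, Finset.card_product, ih, pow_succ, mul_comm]
    rintro ⟨a, b⟩ hab ⟨c, d⟩ hcd h
    simp only [Finset.coe_product, Set.mem_prod, Finset.mem_coe] at hab hcd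
    simp only at h
    have h1 : a % Q = c % Q := by
      have := congrArg (· % Q) h
      simpa [Nat.add_mul_mod_self_left] using this
    have h2 : a = c := hE hab.1 hcd.1 h1
    subst h2
    have h3 : Q * b = Q * d := by omega
    have h4 : b = d := Nat.eq_of_mul_eq_mul_left hQ h3
    rw [h4]

theorem sums_bound {Q M : ℕ} (hQ : 2 ≤ Q) {E : Finset ℕ} (hE : ∀ e ∈ E, e ≤ M) (j : ℕ) :
    ∀ s ∈ sums Q E j, s + M ≤ M * Q ^ j := by
  induction j with
  | zero => intro s hs; simp [sums] at hs; simp [hs]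
  | succ j ih =>
    intro s hs
    obtain ⟨e, he, t, ht, rfl⟩ := mem_sums_succ.mp hs
    have h1 := hE e he
    have h2 := ih t ht
    have h3 : Q * (t + M) ≤ Q * (M * Q ^ j) := Nat.mul_le_mul_left _ h2
    have h4 : Q * (M * Q ^ j) = M * Q ^ (j + 1) := by rw [pow_succ]; ring
    have h5 : M + M ≤ Q * M := by nlinarith
    rw [h4, mul_add] at h3
    omega

theorem sums_pos {Q : ℕ} {E : Finset ℕ} (hE : ∀ e ∈ E, 0 < e) (j : ℕ) :
    ∀ s ∈ sums Q E (j + 1), 0 < s := by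
  intro s hs
  obtain ⟨e, he, t, ht, rfl⟩ := mem_sums_succ.mp hs
  have := hE e he
  omega

theorem rep_sums {Q M : ℕ} (hQ : 0 < Q) (hM : 0 < M) {E : Finset ℕ} (hE : ∀ e ∈ E, e ∣ M)
    (j : ℕ) : ∀ s ∈ sums Q E j, Rep j (M * Q ^ j) s := by
  induction j with
  | zero => intro s hs; simp [sums] at hs; subst hs; exact Rep.zero _ _
  | succ j ih =>
    intro s hs
    obtain ⟨e, he, t, ht, rfl⟩ := mem_sums_succ.mp hs
    have h1 := (ih t ht).mul_both hQ
    have h2 : Rep 1 (M * Q ^ j * Q) e :=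
      Rep.of_dvd (by positivity) (Dvd.dvd.mul_right (Dvd.dvd.mul_right (hE e he) _) _)
    have h3 := h2.add h1
    have e1 : M * Q ^ j * Q = M * Q ^ (j + 1) := by rw [pow_succ]; ring
    rw [e1] at h3
    exact h3.mono (by omega)

/-- The numbers `s₁ + u s₂ + s₃ + u s₄`. -/
theorem rep_four {Q M : ℕ} (hQ : 0 < Q) (hM : 0 < M) {E : Finset ℕ} (hE : ∀ e ∈ E, e ∣ M)
    (j : ℕ) {u s₁ s₂ s₃ s₄ : ℕ} (hu : u ∣ M) (h₁ : s₁ ∈ sums Q E j) (h₂ : s₂ ∈ sums Q E j)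
    (h₃ : s₃ ∈ sums Q E j) (h₄ : s₄ ∈ sums Q E j) :
    Rep (4 * j) (M * M * Q ^ j) ((s₁ + u * s₂) + (s₃ + u * s₄)) := by
  have hu0 : 0 < u := Nat.pos_of_dvd_of_pos hu hM
  have key1 : ∀ s ∈ sums Q E j, Rep j (M * M * Q ^ j) s := by
    intro s hs
    apply (rep_sums hQ hM hE j s hs).of_dvd_modulus
    · exact ⟨M, by ring⟩
    · positivity
  have key2 : ∀ s ∈ sums Q E j, Rep j (M * M * Q ^ j) (u * s) := by
    intro s hs
    apply ((rep_sums hQ hM hE j s hs).mul_both hu0).of_dvd_modulus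
    · obtain ⟨c, hc⟩ := hu
      refine ⟨c, ?_⟩
      calc M * M * Q ^ j = M * (u * c) * Q ^ j := by rw [← hc]
        _ = M * Q ^ j * u * c := by ring
    · positivity
  have := ((key1 s₁ h₁).add (key2 s₂ h₂)).add ((key1 s₃ h₃).add (key2 s₄ h₄))
  exact this.mono (by omega)

end Vale.Agent.P012
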