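import Mathlib.NumberTheory.Primorial
import Mathlib.NumberTheory.Bertrand
import Mathlib.NumberTheory.ArithmeticFunction.Misc
import Vale.Agent.P012.Sums
import Vale.Agent.P012.Iterate
import Vale.Agent.P012.Cover
import Vale.Agent.P012.GoodPrimes
import Vale.Agent.P012.Cheb

namespace Vale.Agent.P012

open Finset

theorem card_divisors_primorial (n : ℕ) :
    (primorial n).divisors.card = 2 ^ Nat.primeCounting n := by
  rw [Nat.card_divisors (primorial_ne_zero n), primeFactors_primorial,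
    ← Nat.primesLE_card_eq_primeCounting, ← Finset.prod_const]
  apply Finset.prod_congr rfl
  intro p hp
  have hp1 : p.Prime := Nat.prime_of_mem_primesLE hp
  have hp2 : p ≤ n := Nat.le_of_mem_primesLE hp
  have h1 : (primorial n).factorization p ≤ 1 :=
    (squarefree_primorial n).natFactorization_le_one p
  have h2 : 0 < (primorial n).factorization p :=
    hp1.factorization_pos_of_dvd (primorial_ne_zero n) (hp1.dvd_primorial_iff.mpr hp2)
  omega

/-- The modulus `Q`. -/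
theorem find_Q (k w M : ℕ) (hw1 : 1 ≤ w) (hwk : w ≤ 2 ^ k) (hkw : 4 * k + 8 ≤ w)
    (hM : M ≤ 2 ^ (2 * 2 ^ k)) (hD : M.divisors.card = 2 ^ w) :
    ∃ Q : ℕ, Q.Prime ∧ Q ≤ 2 ^ w ∧ ∃ E : Finset ℕ, E ⊆ M.divisors ∧
      Set.InjOn (fun e : ℕ => e % Q) (E : Set ℕ) ∧ 2 ^ w ≤ E.card ^ 2 := by
  have h := many_good_primes w (2 * 2 ^ k + 1) hw1 M.divisors (by
    intro s hs
    have h1 : s ≤ M := Nat.divisor_le hs
    calc s ≤ 2 ^ (2 * 2 ^ k) := h1.trans hM
      _ < 2 ^ (2 * 2 ^ k + 1) := Nat.pow_lt_pow_right (by norm_num) (by omega))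
    hD.ge (two_pow_le_primeCounting w hw1)
  have hne : ((Finset.range (2 ^ w + 1)).filter (fun q => q.Prime ∧
      2 ^ w ≤ (M.divisors.image (fun s => s % q)).card *
        (1 + 4 * w * (2 * 2 ^ k + 1)))).Nonempty := by
    rw [← Finset.card_pos]
    by_contra h0
    push Not at h0
    have h1 : ((Finset.range (2 ^ w + 1)).filter (fun q => q.Prime ∧
      2 ^ w ≤ (M.divisors.image (fun s => s % q)).card *
        (1 + 4 * w * (2 * 2 ^ k + 1)))).card = 0 := by omega
    rw [h1, mul_zero] at h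
    have : 0 < 2 ^ w := by positivity
    omega
  obtain ⟨Q, hQ⟩ := hne
  rw [Finset.mem_filter, Finset.mem_range] at hQ
  obtain ⟨hQ1, hQ2, hQ3⟩ := hQ
  refine ⟨Q, hQ2, by omega, ?_⟩
  -- choose representatives
  obtain ⟨u, hu1, hu2, hu3⟩ := Set.SurjOn.exists_subset_injOn_image_eq
    (Set.surjOn_image (fun s : ℕ => s % Q) (M.divisors : Set ℕ))
  have hufin : u.Finite := M.divisors.finite_toSet.subset hu1
  refine ⟨hufin.toFinset, ?_, ?_, ?_⟩
  · intro x hx
    exact hu1 ((Set.Finite.mem_toFinset hufin).mp hx)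
  · simpa using hu2
  · have hcard : (M.divisors.image (fun s => s % Q)).card = hufin.toFinset.card := by
      have h1 : (hufin.toFinset.image (fun s => s % Q)) = M.divisors.image (fun s => s % Q) := by
        ext x
        have := Set.ext_iff.mp hu3 x
        simpa using this
      rw [← h1, Finset.card_image_of_injOn]
      simpa using hu2
    rw [hcard] at hQ3
    set e := hufin.toFinset.card with he
    have h2 : 1 + 4 * w * (2 * 2 ^ k + 1) ≤ 2 ^ (2 * k + 4) := by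
      have h3 : (1 : ℕ) ≤ 2 ^ k := Nat.one_le_two_pow
      have h4 : 4 * w * (2 * 2 ^ k + 1) ≤ 4 * 2 ^ k * (3 * 2 ^ k) := by
        apply Nat.mul_le_mul
        · omega
        · omega
      have h5 : (2 : ℕ) ^ (2 * k + 4) = 16 * (2 ^ k * 2 ^ k) := by
        rw [pow_add, two_mul, pow_add]; ring
      have h6 : 4 * 2 ^ k * (3 * 2 ^ k) = 12 * (2 ^ k * 2 ^ k) := by ring
      have h7 : 1 ≤ 2 ^ k * 2 ^ k := Nat.mul_pos h3 h3
      omega
    have h3 : 2 ^ w ≤ e * 2 ^ (2 * k + 4) := hQ3.trans (Nat.mul_le_mul_left _ h2)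
    have h4 : (2 ^ w) ^ 2 ≤ (e * 2 ^ (2 * k + 4)) ^ 2 := Nat.pow_le_pow_left h3 2
    have h5 : (e * 2 ^ (2 * k + 4)) ^ 2 = e ^ 2 * 2 ^ (4 * k + 8) := by
      rw [mul_pow, ← pow_mul]; ring_nf
    have h6 : (2 : ℕ) ^ (4 * k + 8) ≤ 2 ^ w := Nat.pow_le_pow_right (by norm_num) hkw
    have h7 : 2 ^ w * 2 ^ w ≤ e ^ 2 * 2 ^ w := by
      calc 2 ^ w * 2 ^ w = (2 ^ w) ^ 2 := by ring
        _ ≤ e ^ 2 * 2 ^ (4 * k + 8) := by rw [← h5]; exact h4
        _ ≤ e ^ 2 * 2 ^ w := Nat.mul_le_mul_left _ h6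
    exact Nat.le_of_mul_le_mul_right h7 (by positivity)

end Vale.Agent.P012
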