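import Mathlib.Algebra.BigOperators.Group.Finset.Basic
import Mathlib.Algebra.Order.Field.Rat
import Mathlib.Order.ConditionallyCompleteLattice.Basic
import Mathlib.Order.Lattice.Nat
import Mathlib.Order.Interval.Finset.Nat

namespace Vale.Agent.P012

def IsSumOfUnitFractions (a b k : ℕ) : Prop :=
  ∃ S : Finset ℕ, S.card = k ∧ (∀ n ∈ S, 2 ≤ n) ∧ ∑ n ∈ S, (1 : ℚ) / n = (a : ℚ) / b

noncomputable def minTerms (a b : ℕ) : ℕ :=
  sInf {k : ℕ | 1 ≤ k ∧ IsSumOfUnitFractions a b k}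

noncomputable def maxTerms (b : ℕ) : ℕ :=
  (Finset.Ico 1 b).sup (fun a => minTerms a b)

end Vale.Agent.P012
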