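import Mathlib

namespace Vale.Agent.P012

open Finset

lemma low_pos_ge {p : ℤ} {q : ℕ} (hq : 0 < q) (h : (0 : ℚ) < (p : ℚ) / q) :
    (1 : ℚ) / q ≤ (p : ℚ) / q := by
  have hq' : (0 : ℚ) < q := by exact_mod_cast hq
  have h1 : (0 : ℚ) < p := by
    by_contra hcon
    rw [not_lt] at hcon
    have := div_nonpos_of_nonpos_of_nonneg hcon hq'.le
    linarith
  have h2 : (0 : ℤ) < p := by exact_mod_cast h1
  have h3 : (1 : ℤ) ≤ p := h2
  have h4 : (1 : ℚ) ≤ p := by exact_mod_cast h3
  exact div_le_div_of_nonneg_right h4 hq'.le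

lemma low_sum_nonneg (T : Finset ℕ) : (0 : ℚ) ≤ ∑ n ∈ T, (1 : ℚ) / n :=
  Finset.sum_nonneg fun n _ => by positivity

lemma low_step (K : ℕ) (hK : 1 ≤ K) : ∀ (j : ℕ) (T : Finset ℕ) (p : ℤ) (q : ℕ),
    T.card = j → j ≤ K → (∀ n ∈ T, 0 < n) → 0 < q →
    ∑ n ∈ T, (1 : ℚ) / n < (p : ℚ) / q →
    (2 * K : ℚ) / (2 * K * q : ℚ) ^ (2 ^ j) ≤ (p : ℚ) / q - ∑ n ∈ T, (1 : ℚ) / n := by
  intro j
  have hK' : (1 : ℚ) ≤ K := by exact_mod_cast hK
  induction j with
  | zero =>
    intro T p q hT _ _ hq hlt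
    rw [Finset.card_eq_zero] at hT
    subst hT
    rw [Finset.sum_empty] at hlt ⊢
    rw [pow_zero, pow_one, sub_zero]
    have hq' : (0 : ℚ) < q := by exact_mod_cast hq
    refine le_trans (le_of_eq ?_) (low_pos_ge hq hlt)
    field_simp
  | succ j ih =>
    intro T p q hT hjK hpos hq hlt
    have hq' : (0 : ℚ) < q := by exact_mod_cast hq
    have hq1 : (1 : ℚ) ≤ q := by exact_mod_cast hq
    have hbase : (1 : ℚ) ≤ 2 * K * q := by nlinarith
    by_cases hall : ∀ n ∈ T, 2 * K * q ≤ n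
    · have h1 : ∑ n ∈ T, (1 : ℚ) / n ≤ 1 / (2 * q) := by
        calc ∑ n ∈ T, (1 : ℚ) / n ≤ ∑ n ∈ T, (1 : ℚ) / (2 * K * q) := by
              refine Finset.sum_le_sum fun n hn => ?_
              apply one_div_le_one_div_of_le (by positivity)
              exact_mod_cast hall n hn
          _ = (T.card : ℚ) * (1 / (2 * K * q)) := by
              rw [Finset.sum_const, nsmul_eq_mul]
          _ ≤ K * (1 / (2 * K * q)) := by
              apply mul_le_mul_of_nonneg_right _ (by positivity)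
              rw [hT]
              exact_mod_cast hjK
          _ = 1 / (2 * q) := by field_simp
      have h2 : (1 : ℚ) / q ≤ (p : ℚ) / q :=
        low_pos_ge hq (lt_of_le_of_lt (low_sum_nonneg T) hlt)
      have h3 : (2 * K : ℚ) / (2 * K * q : ℚ) ^ (2 ^ (j + 1)) ≤ 1 / (2 * q) := by
        have h4 : (2 * K * q : ℚ) ^ 2 ≤ (2 * K * q : ℚ) ^ (2 ^ (j + 1)) := by
          apply pow_le_pow_right₀ hbase
          calc 2 = 2 ^ 1 := (pow_one 2).symm
            _ ≤ 2 ^ (j + 1) := Nat.pow_le_pow_right (by norm_num) (by omega)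
        calc (2 * K : ℚ) / (2 * K * q : ℚ) ^ (2 ^ (j + 1)) ≤ 2 * K / (2 * K * q : ℚ) ^ 2 :=
              div_le_div_of_nonneg_left (by positivity) (by positivity) h4
          _ = 1 / (2 * q) * (1 / (K * q)) := by field_simp
          _ ≤ 1 / (2 * q) * 1 := by
              apply mul_le_mul_of_nonneg_left _ (by positivity)
              rw [div_le_one (by positivity)]
              nlinarith
          _ = 1 / (2 * q) := mul_one _
      have h5 : (1 : ℚ) / q = 1 / (2 * q) + 1 / (2 * q) := by field_simp; norm_num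
      linarith
    · push Not at hall
      obtain ⟨n, hn, hlt2⟩ := hall
      have hn0 : 0 < n := hpos n hn
      have hn' : (0 : ℚ) < n := by exact_mod_cast hn0
      have hsum : ∑ m ∈ T, (1 : ℚ) / m = (1 : ℚ) / n + ∑ m ∈ T.erase n, (1 : ℚ) / m := by
        rw [Finset.add_sum_erase T (fun m => (1 : ℚ) / m) hn]
      have hx : (p : ℚ) / q - 1 / n = ((p * n - q : ℤ) : ℚ) / ((q * n : ℕ) : ℚ) := by
        push_cast
        field_simp
      have h1 := ih (T.erase n) (p * n - q) (q * n)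
        (by rw [Finset.card_erase_of_mem hn, hT]; rfl) (by omega)
        (fun m hm => hpos m (Finset.mem_of_mem_erase hm)) (Nat.mul_pos hq hn0)
        (by rw [← hx]; rw [hsum] at hlt; linarith)
      rw [← hx] at h1
      rw [hsum]
      have h2 : (2 * K : ℚ) / (2 * K * q : ℚ) ^ (2 ^ (j + 1)) ≤
          (2 * K : ℚ) / (2 * K * ((q * n : ℕ) : ℚ)) ^ (2 ^ j) := by
        apply div_le_div_of_nonneg_left (by positivity) (by positivity)
        rw [pow_succ' 2 j, pow_mul]
        apply pow_le_pow_left₀ (by positivity)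
        have h3 : (n : ℚ) ≤ 2 * K * q := by exact_mod_cast hlt2.le
        push_cast
        calc 2 * (K : ℚ) * (q * n) = (2 * K * q) * n := by ring
          _ ≤ (2 * K * q) * (2 * K * q) := mul_le_mul_of_nonneg_left h3 (by positivity)
          _ = (2 * K * q) ^ 2 := by ring
      linarith

theorem lower_bound (b : ℕ) (hb : 2 ≤ b) (S : Finset ℕ) (hS : ∀ n ∈ S, 0 < n)
    (hsum : ∑ n ∈ S, (1 : ℚ) / n = ((b : ℚ) - 1) / b) : b ≤ (2 * S.card) ^ (2 ^ S.card) := by
  have hb' : (2 : ℚ) ≤ b := by exact_mod_cast hb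
  rcases Nat.eq_zero_or_pos S.card with h0 | hK
  · exfalso
    rw [Finset.card_eq_zero] at h0
    subst h0
    rw [Finset.sum_empty] at hsum
    have : (0 : ℚ) < ((b : ℚ) - 1) / b := div_pos (by linarith) (by linarith)
    linarith
  · have hK' : (1 : ℚ) ≤ S.card := by exact_mod_cast hK
    have h1 := low_step S.card hK S.card S 1 1 rfl le_rfl hS one_pos
      (by
        rw [hsum]
        push_cast
        rw [div_one, div_lt_one (by linarith)]
        linarith)
    rw [hsum] at h1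
    push_cast at h1
    rw [div_one, mul_one] at h1
    have h2 : (1 : ℚ) - ((b : ℚ) - 1) / b = 1 / b := by field_simp; ring
    rw [h2, div_le_div_iff₀ (by positivity) (by linarith)] at h1
    have h3 : (b : ℚ) ≤ (2 * (S.card : ℚ)) ^ (2 ^ S.card) := by nlinarith
    exact_mod_cast h3

end Vale.Agent.P012
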