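import Vale.Agent.P012.UF

namespace Vale.Agent.P012

noncomputable def rsum (s : Multiset ℕ) : ℚ := (s.map (fun n : ℕ => (1 : ℚ) / n)).sum

noncomputable def rsq (s : Multiset ℕ) : ℚ := (s.map (fun n : ℕ => (1 : ℚ) / n ^ 2)).sum

theorem rsum_cons (n : ℕ) (s : Multiset ℕ) : rsum (n ::ₘ s) = 1 / n + rsum s := by
  simp [rsum]

theorem rsq_cons (n : ℕ) (s : Multiset ℕ) : rsq (n ::ₘ s) = 1 / (n : ℚ) ^ 2 + rsq s := by
  simp [rsq]

theorem rsum_nonneg (s : Multiset ℕ) : 0 ≤ rsum s := by
  unfold rsum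
  apply Multiset.sum_nonneg
  intro x hx
  obtain ⟨n, _, rfl⟩ := Multiset.mem_map.mp hx
  positivity

theorem finite_level (k : ℕ) : ∀ x : ℚ,
    {s : Multiset ℕ | s.card = k ∧ (∀ n ∈ s, 0 < n) ∧ rsum s = x}.Finite := by
  induction k with
  | zero =>
    intro x
    apply Set.Finite.subset (Set.finite_singleton (0 : Multiset ℕ))
    rintro s ⟨hs, _, _⟩
    simpa [Multiset.card_eq_zero] using hs
  | succ k ih =>
    intro x
    have hfin : (⋃ n ∈ Set.Iic (⌈((k + 1 : ℕ) : ℚ) / x⌉₊),
        (fun t : Multiset ℕ => n ::ₘ t) ''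
          {s : Multiset ℕ | s.card = k ∧ (∀ n ∈ s, 0 < n) ∧ rsum s = x - 1 / (n : ℚ)}).Finite := by
      apply Set.Finite.biUnion (Set.finite_Iic _)
      intro n _
      exact (ih _).image _
    apply Set.Finite.subset hfin
    rintro s ⟨hs, hpos, hsum⟩
    have hx : 0 < x := by
      obtain ⟨a, t, rfl⟩ : ∃ a t, s = a ::ₘ t := by
        have hc : 0 < s.card := by omega
        obtain ⟨a, ha⟩ := Multiset.card_pos_iff_exists_mem.mp hc
        obtain ⟨t, ht⟩ := Multiset.exists_cons_of_mem ha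
        exact ⟨a, t, ht⟩
      rw [rsum_cons] at hsum
      have h1 : 0 < (a : ℚ) := by exact_mod_cast hpos a (Multiset.mem_cons_self a t)
      have h2 := rsum_nonneg t
      have h3 : (0 : ℚ) < 1 / a := by positivity
      linarith
    obtain ⟨n, hn, hle⟩ : ∃ n ∈ s, x / ((k + 1 : ℕ) : ℚ) ≤ 1 / (n : ℚ) := by
      by_contra hcon
      push Not at hcon
      have hne : s ≠ 0 := by
        intro h0
        rw [h0] at hs
        simp at hs
      have h1 : rsum s < (s.map (fun _ : ℕ => x / ((k + 1 : ℕ) : ℚ))).sum := by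
        unfold rsum
        exact Multiset.sum_lt_sum_of_nonempty hne hcon
      rw [Multiset.map_const', Multiset.sum_replicate, hs, nsmul_eq_mul, hsum] at h1
      have h2 : ((k + 1 : ℕ) : ℚ) ≠ 0 := by positivity
      rw [mul_div_cancel₀ _ h2] at h1
      exact lt_irrefl _ h1
    have hn0 : 0 < (n : ℚ) := by exact_mod_cast hpos n hn
    have hkk : (0 : ℚ) < ((k + 1 : ℕ) : ℚ) := by positivity
    obtain ⟨t, rfl⟩ := Multiset.exists_cons_of_mem hn
    simp only [Set.mem_iUnion]
    refine ⟨n, ?_, t, ⟨?_, ?_, ?_⟩, rfl⟩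
    · rw [Set.mem_Iic]
      have h3 : (n : ℚ) ≤ ((k + 1 : ℕ) : ℚ) / x := by
        rw [le_div_iff₀ hx]
        rw [div_le_div_iff₀ hkk hn0] at hle
        linarith
      have h4 := Nat.le_ceil (((k + 1 : ℕ) : ℚ) / x)
      exact_mod_cast h3.trans h4
    · simpa using hs
    · intro m hm
      exact hpos m (Multiset.mem_cons_of_mem hm)
    · rw [rsum_cons] at hsum
      linarith

theorem exists_distinct (k : ℕ) (x : ℚ) (hx : UF k x) (h0 : 0 < x) (h1 : x < 1) :
    ∃ S : Finset ℕ, 1 ≤ S.card ∧ S.card ≤ k ∧ (∀ n ∈ S, 2 ≤ n) ∧ ∑ n ∈ S, (1 : ℚ) / n = x := by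
  classical
  have hex : ∃ j, ∃ s : Multiset ℕ, s.card = j ∧ (∀ n ∈ s, 0 < n) ∧ rsum s = x := by
    obtain ⟨s, _, h2, h3⟩ := hx
    exact ⟨s.card, s, rfl, h2, h3⟩
  obtain ⟨j, hj, hmin⟩ : ∃ j, (∃ s : Multiset ℕ, s.card = j ∧ (∀ n ∈ s, 0 < n) ∧ rsum s = x) ∧
      ∀ i, (∃ s : Multiset ℕ, s.card = i ∧ (∀ n ∈ s, 0 < n) ∧ rsum s = x) → j ≤ i :=
    ⟨Nat.find hex, Nat.find_spec hex, fun i hi => Nat.find_min' hex hi⟩
  have hjk : j ≤ k := by
    obtain ⟨s, h2, h3, h4⟩ := hx
    exact (hmin _ ⟨s, rfl, h3, h4⟩).trans h2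
  obtain ⟨s, ⟨hs, hpos, hsum⟩, hmax⟩ := Set.exists_max_image
    {s : Multiset ℕ | s.card = j ∧ (∀ n ∈ s, 0 < n) ∧ rsum s = x} rsq (finite_level j x) hj
  have hnodup : s.Nodup := by
    by_contra hnd
    rw [Multiset.nodup_iff_le] at hnd
    push Not at hnd
    obtain ⟨m, hm⟩ := hnd
    obtain ⟨t, rfl⟩ := Multiset.le_iff_exists_add.mp hm
    have hform : (m ::ₘ m ::ₘ 0) + t = m ::ₘ m ::ₘ t := by
      simp
    rw [hform] at hs hpos hsum hmax
    have hm0 : 0 < m := hpos m (by simp)
    rw [rsum_cons, rsum_cons] at hsum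
    have hmq : (0 : ℚ) < m := by exact_mod_cast hm0
    rcases Nat.even_or_odd m with ⟨i, hi⟩ | ⟨i, hi⟩
    · have hi0 : 0 < i := by omega
      have hiq : (0 : ℚ) < i := by exact_mod_cast hi0
      have hmi : (m : ℚ) = 2 * i := by rw [hi]; push_cast; ring
      have hnew := hmin (t.card + 1) ⟨i ::ₘ t, by simp, ?_, ?_⟩
      · simp at hs
        omega
      · intro n hn
        rcases Multiset.mem_cons.mp hn with h | h
        · omega
        · exact hpos n (by simp [h])
      · rw [rsum_cons, ← hsum, hmi]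
        field_simp
        ring
    · rcases Nat.eq_zero_or_pos i with hi0 | hi0
      · have hm1 : m = 1 := by omega
        rw [hm1] at hsum
        have := rsum_nonneg t
        norm_num at hsum
        linarith
      · have hiq : (0 : ℚ) < i := by exact_mod_cast hi0
        have hmi : (m : ℚ) = 2 * i + 1 := by rw [hi]; push_cast; ring
        have hmem : ((i + 1) ::ₘ (m * (i + 1)) ::ₘ t) ∈
            {s : Multiset ℕ | s.card = j ∧ (∀ n ∈ s, 0 < n) ∧ rsum s = x} := by
          refine ⟨?_, ?_, ?_⟩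
          · simpa using hs
          · intro n hn
            rcases Multiset.mem_cons.mp hn with h | h
            · omega
            · rcases Multiset.mem_cons.mp h with h | h
              · rw [h]; positivity
              · exact hpos n (by simp [h])
          · rw [rsum_cons, rsum_cons, ← hsum]
            push_cast
            rw [hmi]
            field_simp
            ring
        have hle := hmax _ hmem
        rw [rsq_cons, rsq_cons, rsq_cons, rsq_cons] at hle
        push_cast at hle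
        have hlt : 1 / (m : ℚ) ^ 2 + 1 / (m : ℚ) ^ 2 <
            1 / ((i : ℚ) + 1) ^ 2 + 1 / ((m : ℚ) * ((i : ℚ) + 1)) ^ 2 := by
          have e1 : 1 / (m : ℚ) ^ 2 + 1 / (m : ℚ) ^ 2 =
              (2 * ((i : ℚ) + 1) ^ 2) / ((m : ℚ) * ((i : ℚ) + 1)) ^ 2 := by
            field_simp
            ring
          have e2 : 1 / ((i : ℚ) + 1) ^ 2 + 1 / ((m : ℚ) * ((i : ℚ) + 1)) ^ 2 =
              ((m : ℚ) ^ 2 + 1) / ((m : ℚ) * ((i : ℚ) + 1)) ^ 2 := by
            field_simp
          rw [e1, e2]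
          apply div_lt_div_of_pos_right _ (by positivity)
          rw [hmi]
          nlinarith
        linarith
  refine ⟨s.toFinset, ?_, ?_, ?_, ?_⟩
  · rw [Multiset.toFinset_card_of_nodup hnodup]
    rcases Nat.eq_zero_or_pos s.card with h | h
    · rw [Multiset.card_eq_zero] at h
      rw [h] at hsum
      simp [rsum] at hsum
      linarith
    · exact h
  · rw [Multiset.toFinset_card_of_nodup hnodup, hs]
    exact hjk
  · intro n hn
    rw [Multiset.mem_toFinset] at hn
    have hn0 := hpos n hn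
    rcases Nat.lt_or_ge n 2 with h | h
    · have hn1 : n = 1 := by omega
      obtain ⟨t, rfl⟩ := Multiset.exists_cons_of_mem hn
      rw [rsum_cons, hn1] at hsum
      have := rsum_nonneg t
      norm_num at hsum
      linarith
    · exact h
  · rw [← hsum]
    unfold rsum
    rw [Finset.sum, Multiset.toFinset_val, Multiset.dedup_eq_self.mpr hnodup]

end Vale.Agent.P012
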