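import Vale.Agent.P012.UF

namespace Vale.Agent.P012

def growW : ℕ → ℕ → ℕ
  | 0, W => W
  | n + 1, W => growW n (W * (W + 1))

theorem growW_lower (n W : ℕ) : W ^ (2 ^ n) ≤ growW n W := by
  induction n generalizing W with
  | zero => simp [growW]
  | succ n ih =>
    calc W ^ (2 ^ (n + 1)) = (W * W) ^ (2 ^ n) := by
          rw [pow_succ, mul_comm (2 ^ n) 2, pow_mul, sq]
      _ ≤ (W * (W + 1)) ^ (2 ^ n) :=
          Nat.pow_le_pow_left (Nat.mul_le_mul_left _ (Nat.le_succ _)) _
      _ ≤ growW n (W * (W + 1)) := ih _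

theorem growW_one (j : ℕ) : 2 ^ (2 ^ j) ≤ growW (j + 1) 1 := by
  have := growW_lower j 2
  simpa [growW] using this

theorem greedy_aux (B : ℕ) : ∀ (n a b W : ℕ), 0 < b → b < B → a * W < b → B ≤ growW n W →
    ∃ a' b' : ℕ, ∃ y : ℚ, UF n y ∧ (a : ℚ) / b = y + (a' : ℚ) / b' ∧ a' ≤ a ∧ 0 < b' ∧
      (a' = 0 ∨ (B ≤ b' ∧ b' < B ^ 2)) := by
  intro n
  induction n with
  | zero =>
    intro a b W hb hbB haW hB
    have ha : a = 0 := by
      rcases Nat.eq_zero_or_pos a with h | h
      · exact h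
      · exfalso
        have h1 : W ≤ a * W := Nat.le_mul_of_pos_left W h
        simp only [growW] at hB
        omega
    subst ha
    exact ⟨0, b, 0, UF.zero, by simp, le_refl _, hb, Or.inl rfl⟩
  | succ n ih =>
    intro a b W hb hbB haW hB
    rcases Nat.eq_zero_or_pos a with h | ha
    · subst h
      exact ⟨0, b, 0, UF.zero.mono (Nat.zero_le _), by simp, le_refl _, hb, Or.inl rfl⟩
    · obtain ⟨m, hm1, hm2⟩ : ∃ m : ℕ, m * a < b ∧ b ≤ (m + 1) * a := by
        refine ⟨(b - 1) / a, ?_, ?_⟩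
        · have := Nat.div_mul_le_self (b - 1) a
          omega
        · have := Nat.lt_div_mul_add (a := b - 1) ha
          rw [Nat.add_mul, one_mul]
          omega
      have hWm : W ≤ m := by
        by_contra hcon
        have h1 : (m + 1) * a ≤ W * a := Nat.mul_le_mul_right a (by omega)
        rw [mul_comm W a] at h1
        omega
      have hmb : m + 1 ≤ b := by
        have : m * 1 ≤ m * a := Nat.mul_le_mul_left m ha
        omega
      have hsplit : (a : ℚ) / b = 1 / ((m + 1 : ℕ) : ℚ) +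
          (((m + 1) * a - b : ℕ) : ℚ) / ((b * (m + 1) : ℕ) : ℚ) := by
        rw [Nat.cast_sub hm2]
        have hb' : (b : ℚ) ≠ 0 := by exact_mod_cast hb.ne'
        have hm' : ((m : ℚ) + 1) ≠ 0 := by positivity
        push_cast
        field_simp
        ring
      have ha1 : (m + 1) * a - b < a := by
        rw [Nat.add_mul, one_mul]
        omega
      rcases Nat.lt_or_ge (b * (m + 1)) B with hlt | hge
      · obtain ⟨a', b', y, hy, he, hle, hpos, hor⟩ := ih ((m + 1) * a - b) (b * (m + 1))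
          (W * (W + 1)) (by positivity) hlt (by
            calc ((m + 1) * a - b) * (W * (W + 1))
                ≤ ((m + 1) * a - b) * (m * (m + 1)) :=
                  Nat.mul_le_mul_left _ (Nat.mul_le_mul hWm (by omega))
              _ = (((m + 1) * a - b) * m) * (m + 1) := by ring
              _ ≤ (a * m) * (m + 1) :=
                  Nat.mul_le_mul_right _ (Nat.mul_le_mul_right _ ha1.le)
              _ < b * (m + 1) :=
                  Nat.mul_lt_mul_of_pos_right (by rw [mul_comm a m]; exact hm1) (by omega))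
          (by simpa [growW] using hB)
        refine ⟨a', b', 1 / ((m + 1 : ℕ) : ℚ) + y, ?_, ?_, ?_, hpos, hor⟩
        · have := (UF.unit (n := m + 1) (by omega)).add hy
          rwa [Nat.add_comm 1 n] at this
        · rw [hsplit, he, add_assoc]
        · omega
      · refine ⟨(m + 1) * a - b, b * (m + 1), 1 / ((m + 1 : ℕ) : ℚ), ?_, hsplit, ha1.le,
          by positivity, Or.inr ⟨hge, ?_⟩⟩
        · exact (UF.unit (n := m + 1) (by omega)).mono (by omega)
        · calc b * (m + 1) ≤ b * b := Nat.mul_le_mul_left _ hmb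
            _ < B ^ 2 := by
              rw [sq]
              exact Nat.mul_lt_mul'' hbB hbB

theorem greedy (a b j : ℕ) (ha : 0 < a) (hab : a < b) (hj : b ^ 4 ≤ 2 ^ (2 ^ j)) :
    ∃ a' b' : ℕ, ∃ y : ℚ, UF (j + 1) y ∧ (a : ℚ) / b = y + (a' : ℚ) / b' ∧ a' ≤ a ∧ 0 < b' ∧
      (a' = 0 ∨ (b ^ 4 ≤ b' ∧ b' < b ^ 8)) := by
  have hb1 : 1 < b := by omega
  have h1 : b < b ^ 4 := by
    calc b = b ^ 1 := (pow_one b).symm
      _ < b ^ 4 := Nat.pow_lt_pow_right hb1 (by norm_num)
  have h2 := greedy_aux (b ^ 4) (j + 1) a b 1 (by omega) h1 (by omega)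
    (hj.trans (growW_one j))
  have h3 : (b ^ 4) ^ 2 = b ^ 8 := by rw [← pow_mul]
  rw [h3] at h2
  exact h2

end Vale.Agent.P012
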