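import Vale.Agent.P012.Range
import Vale.Agent.P012.Greedy

namespace Vale.Agent.P012

theorem upper (k : ℕ) (hk : 12 ≤ k) (a b : ℕ) (ha : 0 < a) (hab : a < b)
    (h1 : 2 ^ (2 ^ (k + 4)) ≤ b) (h2 : b < 2 ^ (2 ^ (k + 5))) :
    UF (40000 * k) ((a : ℚ) / b) := by
  obtain ⟨T, R, hT8, hT9, hR, hrange⟩ := range_theorem k hk
  have e1 : (2 : ℕ) ^ (k + 4) = 16 * 2 ^ k := by rw [pow_add]; ring
  have e2 : (2 : ℕ) ^ (k + 5) = 32 * 2 ^ k := by rw [pow_add]; ring
  have e3 : (2 : ℕ) ^ (k + 7) = 128 * 2 ^ k := by rw [pow_add]; ring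
  have hb4 : b ^ 4 ≤ 2 ^ (2 ^ (k + 7)) := by
    calc b ^ 4 ≤ (2 ^ (2 ^ (k + 5))) ^ 4 := Nat.pow_le_pow_left h2.le 4
      _ = 2 ^ (2 ^ (k + 7)) := by
        rw [← pow_mul, e2, e3]
        congr 1
        ring
  obtain ⟨a', b', y, hy, hsum, ha', hb', hor⟩ := greedy a b (k + 7) ha hab hb4
  have hkey : UF (2 * (32 * (4 * (8 * R)) + (2 * k + 17 + 1))) ((a' : ℚ) / b') := by
    rcases hor with h0 | ⟨h3, h4⟩
    · subst h0
      simpa using UF.mono UF.zero (Nat.zero_le _)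
    · apply hrange a' b' hb'
      · have h5 : 2 ^ T ≤ b := by
          refine le_trans ?_ h1
          exact Nat.pow_le_pow_right (by norm_num) (by omega)
        calc a' * 2 ^ (3 * T) ≤ b * (2 ^ T) ^ 3 := by
              rw [← pow_mul, mul_comm T 3]
              exact Nat.mul_le_mul_right _ (by omega)
          _ ≤ b * b ^ 3 := Nat.mul_le_mul_left _ (Nat.pow_le_pow_left h5 3)
          _ = b ^ 4 := by ring
          _ ≤ b' := h3
      · calc b' ≤ b ^ 8 := h4.le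
          _ ≤ (2 ^ (2 ^ (k + 5))) ^ 8 := Nat.pow_le_pow_left h2.le 8
          _ = 2 ^ (256 * 2 ^ k) := by
            rw [← pow_mul, e2]
            congr 1
            ring
          _ ≤ 2 ^ (32 * T) := Nat.pow_le_pow_right (by norm_num) (by omega)
  rw [hsum]
  exact (hy.add hkey).mono (by omega)

end Vale.Agent.P012
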