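import Mathlib
import Vale.Agent.P012.Defs
import Vale.Agent.P012.Upper
import Vale.Agent.P012.Lower
import Vale.Agent.P012.Takenouchi

namespace Vale.Agent.P012

theorem UF_self (b : ℕ) (hb : 0 < b) (a : ℕ) : UF a ((a : ℚ) / b) := by
  induction a with
  | zero => simpa using UF.zero
  | succ n ih =>
    have h := ih.add (UF.unit hb)
    have e : ((n + 1 : ℕ) : ℚ) / b = (n : ℚ) / b + 1 / b := by
      push_cast
      rw [add_div]
    rw [e]
    exact h

theorem exists_of_UF {k a b : ℕ} (ha : 1 ≤ a) (hab : a < b) (h : UF k ((a : ℚ) / b)) :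
    ∃ j, 1 ≤ j ∧ j ≤ k ∧ IsSumOfUnitFractions a b j := by
  have hb : (0 : ℚ) < b := by
    have : 0 < b := by omega
    exact_mod_cast this
  have ha' : (0 : ℚ) < a := by
    have : 0 < a := by omega
    exact_mod_cast this
  have h0 : (0 : ℚ) < (a : ℚ) / b := div_pos ha' hb
  have h1 : (a : ℚ) / b < 1 := by
    rw [div_lt_one hb]
    exact_mod_cast hab
  obtain ⟨S, hS1, hS2, hS3, hS4⟩ := exists_distinct k _ h h0 h1
  exact ⟨S.card, hS1, hS2, S, rfl, hS3, hS4⟩

theorem exists_terms (a b : ℕ) (ha : 1 ≤ a) (hab : a < b) :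
    ∃ k, 1 ≤ k ∧ IsSumOfUnitFractions a b k := by
  obtain ⟨j, h1, _, h3⟩ := exists_of_UF ha hab (UF_self b (by omega) a)
  exact ⟨j, h1, h3⟩

theorem minTerms_le {k a b : ℕ} (ha : 1 ≤ a) (hab : a < b) (h : UF k ((a : ℚ) / b)) :
    minTerms a b ≤ k := by
  obtain ⟨j, h1, h2, h3⟩ := exists_of_UF ha hab h
  have h4 : j ∈ {k : ℕ | 1 ≤ k ∧ IsSumOfUnitFractions a b k} := ⟨h1, h3⟩
  exact (Nat.sInf_le h4).trans h2

theorem minTerms_spec (a b : ℕ) (ha : 1 ≤ a) (hab : a < b) :
    1 ≤ minTerms a b ∧ IsSumOfUnitFractions a b (minTerms a b) := by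
  obtain ⟨k, hk⟩ := exists_terms a b ha hab
  exact Nat.sInf_mem (s := {k : ℕ | 1 ≤ k ∧ IsSumOfUnitFractions a b k}) ⟨k, hk⟩

theorem maxTerms_le (b : ℕ) (hb : 2 ^ (2 ^ 16) ≤ b) :
    (maxTerms b : ℝ) ≤ 160000 * Real.log (Real.log b) := by
  have hb0 : b ≠ 0 := by
    rintro rfl
    have : 0 < 2 ^ (2 ^ 16) := Nat.pow_pos (by norm_num)
    exact absurd (Nat.le_zero.mp hb) this.ne'
  obtain ⟨L, hL⟩ : ∃ L, L = Nat.log 2 (Nat.log 2 b) := ⟨_, rfl⟩
  have hlog1 : 2 ^ 16 ≤ Nat.log 2 b := by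
    have := Nat.log_mono_right (b := 2) hb
    rwa [Nat.log_pow (by norm_num)] at this
  have hlog0 : Nat.log 2 b ≠ 0 := by
    intro h
    rw [h] at hlog1
    norm_num at hlog1
  have hL16 : 16 ≤ L := by
    rw [hL]
    have := Nat.log_mono_right (b := 2) hlog1
    rwa [Nat.log_pow (by norm_num)] at this
  have hlo : 2 ^ (2 ^ L) ≤ b := by
    have h1 : 2 ^ L ≤ Nat.log 2 b := by
      rw [hL]; exact Nat.pow_log_le_self 2 hlog0
    exact (Nat.pow_le_pow_right (by norm_num) h1).trans (Nat.pow_log_le_self 2 hb0)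
  have hhi : b < 2 ^ (2 ^ (L + 1)) := by
    have h1 : Nat.log 2 b < 2 ^ (L + 1) := by
      rw [hL]; exact Nat.lt_pow_succ_log_self (by norm_num) _
    exact (Nat.lt_pow_succ_log_self (by norm_num) b).trans_le
      (Nat.pow_le_pow_right (by norm_num) h1)
  obtain ⟨k, hk⟩ : ∃ k, L = k + 4 := ⟨L - 4, by omega⟩
  have hmax : maxTerms b ≤ 40000 * k := by
    unfold maxTerms
    apply Finset.sup_le
    intro a ha
    rw [Finset.mem_Ico] at ha
    apply minTerms_le ha.1 ha.2
    apply upper k (by omega) a b (by omega) ha.2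
    · rw [← hk]; exact hlo
    · have : k + 5 = L + 1 := by omega
      rw [this]; exact hhi
  have hlog2 : (1 / 2 : ℝ) ≤ Real.log 2 := by
    have := Real.log_two_gt_d9
    linarith
  have hloR : (2 : ℝ) ^ (2 ^ L) ≤ b := by exact_mod_cast hlo
  have h1 : (2 : ℝ) ^ L * Real.log 2 ≤ Real.log b := by
    have h := Real.log_le_log (by positivity) hloR
    rw [Real.log_pow] at h
    push_cast at h
    exact h
  have h2 : (2 : ℝ) ^ (L - 1) ≤ Real.log b := by
    refine le_trans ?_ h1
    have e : (2 : ℝ) ^ L = 2 ^ (L - 1) * 2 := by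
      rw [← pow_succ]
      congr 1
      omega
    rw [e]
    have hp : (0 : ℝ) < 2 ^ (L - 1) := by positivity
    nlinarith
  have h3 : ((L : ℝ) - 1) * Real.log 2 ≤ Real.log (Real.log b) := by
    have h := Real.log_le_log (by positivity) h2
    rw [Real.log_pow, Nat.cast_sub (by omega)] at h
    simpa using h
  have hL16R : (16 : ℝ) ≤ L := by exact_mod_cast hL16
  have h4 : (L : ℝ) ≤ 4 * Real.log (Real.log b) := by nlinarith
  have h5 : (maxTerms b : ℝ) ≤ 40000 * L := by
    have : maxTerms b ≤ 40000 * L := by omega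
    exact_mod_cast this
  linarith

theorem le_maxTerms (b : ℕ) (hb : 3 ≤ b) :
    Real.log (Real.log b) ≤ 3 * (maxTerms b : ℝ) := by
  obtain ⟨hN1, S, hScard, hS2, hSsum⟩ := minTerms_spec (b - 1) b (by omega) (by omega)
  obtain ⟨N, hN⟩ : ∃ N, N = minTerms (b - 1) b := ⟨_, rfl⟩
  have hle : N ≤ maxTerms b := by
    rw [hN]
    unfold maxTerms
    exact Finset.le_sup (f := fun a => minTerms a b) (Finset.mem_Ico.mpr ⟨by omega, by omega⟩)
  have hbd : b ≤ (2 * N) ^ (2 ^ N) := by
    have h := lower_bound b (by omega) S (fun n hn => by have := hS2 n hn; omega) (by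
      rw [hSsum, Nat.cast_sub (by omega)]
      simp)
    rw [hScard, ← hN] at h
    exact h
  have hN1' : 1 ≤ N := by rw [hN]; exact hN1
  have hNR : (1 : ℝ) ≤ N := by exact_mod_cast hN1'
  have hbR : (b : ℝ) ≤ (2 * (N : ℝ)) ^ (2 ^ N) := by exact_mod_cast hbd
  have hb3 : (3 : ℝ) ≤ b := by exact_mod_cast hb
  have h1 : Real.log b ≤ 2 ^ N * Real.log (2 * N) := by
    have h := Real.log_le_log (by linarith) hbR
    rw [Real.log_pow] at h
    push_cast at h
    exact h
  have hlogb : 0 < Real.log b := Real.log_pos (by linarith)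
  have hlog2N : 0 < Real.log (2 * N) := Real.log_pos (by linarith)
  have h2 : Real.log (Real.log b) ≤ N * Real.log 2 + Real.log (Real.log (2 * N)) := by
    have h := Real.log_le_log hlogb h1
    rw [Real.log_mul (by positivity) hlog2N.ne', Real.log_pow] at h
    exact h
  have h3 : Real.log (Real.log (2 * N)) ≤ Real.log (2 * N) - 1 :=
    Real.log_le_sub_one_of_pos hlog2N
  have h4 : Real.log (2 * N) ≤ 2 * N - 1 := Real.log_le_sub_one_of_pos (by linarith)
  have h5 : Real.log 2 ≤ 1 := by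
    have := Real.log_two_lt_d9
    linarith
  have h6 : (N : ℝ) * Real.log 2 ≤ N := by nlinarith
  have hleR : (N : ℝ) ≤ maxTerms b := by exact_mod_cast hle
  linarith

theorem maxTerms_isTheta :
    (fun b : ℕ => (maxTerms b : ℝ)) =Θ[Filter.atTop] (fun b : ℕ => Real.log (Real.log b)) := by
  constructor
  · apply Asymptotics.IsBigO.of_bound 160000
    filter_upwards [Filter.eventually_ge_atTop (2 ^ (2 ^ 16))] with b hb
    have h := maxTerms_le b hb
    rw [Real.norm_of_nonneg (by positivity)]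
    exact h.trans (mul_le_mul_of_nonneg_left (Real.le_norm_self _) (by norm_num))
  · apply Asymptotics.IsBigO.of_bound 3
    filter_upwards [Filter.eventually_ge_atTop 3] with b hb
    have h := le_maxTerms b hb
    have hb3 : (3 : ℝ) ≤ b := by exact_mod_cast hb
    have h1 : 1 ≤ Real.log b := by
      rw [Real.le_log_iff_exp_le (by linarith)]
      have := Real.exp_one_lt_d9
      linarith
    have h0 : 0 ≤ Real.log (Real.log b) := Real.log_nonneg h1
    rw [Real.norm_of_nonneg h0, Real.norm_of_nonneg (by positivity)]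
    exact h

end Vale.Agent.P012
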