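import Vale.Agent.P012.Sums
import Vale.Agent.P012.Iterate
import Vale.Agent.P012.Cover
import Vale.Agent.P012.GoodPrimes
import Vale.Agent.P012.Cheb

namespace Vale.Agent.P012

open Finset

theorem card_image_cast (r : ℕ) (S : Finset ℕ) :
    (S.image (fun s : ℕ => (s : ZMod r))).card = (S.image (fun s => s % r)).card := by
  have h : S.image (fun s : ℕ => (s : ZMod r)) =
      (S.image (fun s => s % r)).image (fun s : ℕ => (s : ZMod r)) := by
    rw [Finset.image_image]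
    apply Finset.image_congr
    intro s _
    simp [Function.comp, ZMod.natCast_mod]
  rw [h, Finset.card_image_of_injOn]
  intro a ha b hb hab
  simp only [Finset.coe_image, Set.mem_image, Finset.mem_coe] at ha hb
  obtain ⟨x, _, rfl⟩ := ha
  obtain ⟨y, _, rfl⟩ := hb
  have := (ZMod.natCast_eq_natCast_iff' _ _ r).mp hab
  simpa [Nat.mod_mod] using this

theorem poly_bound (k T : ℕ) (hT9 : T ≤ 9 * 2 ^ k) : 1 + 4 * T * (3 * T) ≤ 2 ^ (2 * k + 10) := by
  have h1 : T * T ≤ (9 * 2 ^ k) * (9 * 2 ^ k) := Nat.mul_le_mul hT9 hT9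
  have h2 : (9 * 2 ^ k) * (9 * 2 ^ k) = 81 * (2 ^ k * 2 ^ k) := by ring
  have h3 : (2 : ℕ) ^ (2 * k + 10) = 1024 * (2 ^ k * 2 ^ k) := by
    rw [pow_add, two_mul, pow_add]; ring
  have h4 : 1 ≤ 2 ^ k * 2 ^ k := Nat.mul_pos Nat.one_le_two_pow Nat.one_le_two_pow
  have h5 : 4 * T * (3 * T) = 12 * (T * T) := by ring
  rw [h2] at h1
  omega

theorem good_rep (k w M Q R T : ℕ) (E : Finset ℕ) (hQ : Q.Prime) (hM : 0 < M)
    (hMle : M ≤ 2 ^ (2 * 2 ^ k)) (hD : M.divisors.card = 2 ^ w) (hE : E ⊆ M.divisors)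
    (hk : 2 * k + 10 < 6 * 2 ^ k) (hT8 : 8 * 2 ^ k ≤ T) (hT9 : T ≤ 9 * 2 ^ k)
    (hkw : 4 * k + 20 < w) (hR : 1 ≤ R) (r : ℕ) (hr : r.Prime) (hr2 : r ≤ 2 ^ T)
    (hgood : 2 ^ T ≤ ((sums Q E (2 * R)).image (fun s => s % r)).card * (1 + 4 * T * (3 * T))) :
    Rep (8 * R) (M * M * Q ^ (2 * R)) r := by
  have := Fact.mk hr
  set e := ((sums Q E (2 * R)).image (fun s => s % r)).card with he
  have h1 : 2 ^ T ≤ e * 2 ^ (2 * k + 10) :=
    hgood.trans (Nat.mul_le_mul_left _ (poly_bound k T hT9))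
  have her : e ≤ r := by
    have h2 : (sums Q E (2 * R)).image (fun s => s % r) ⊆ Finset.range r := by
      intro x hx
      obtain ⟨y, _, rfl⟩ := Finset.mem_image.mp hx
      exact Finset.mem_range.mpr (Nat.mod_lt _ hr.pos)
    have := Finset.card_le_card h2
    rwa [Finset.card_range] at this
  have he0 : 0 < e := by
    rcases Nat.eq_zero_or_pos e with h0 | h0
    · rw [h0, zero_mul] at h1
      have : 0 < 2 ^ T := by positivity
      omega
    · exact h0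
  have hMr : M < r := by
    by_contra hcon
    push Not at hcon
    have h2 : 2 ^ T ≤ 2 ^ (2 * 2 ^ k + (2 * k + 10)) := by
      calc 2 ^ T ≤ e * 2 ^ (2 * k + 10) := h1
        _ ≤ 2 ^ (2 * 2 ^ k) * 2 ^ (2 * k + 10) := by
            apply Nat.mul_le_mul_right
            exact (her.trans hcon).trans hMle
        _ = 2 ^ (2 * 2 ^ k + (2 * k + 10)) := (pow_add _ _ _).symm
    have h3 := (Nat.pow_le_pow_iff_right (by norm_num : 1 < 2)).mp h2
    omega
  -- apply the covering lemma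
  have hA : (M.divisors.image (fun d : ℕ => (d : ZMod r))).card = 2 ^ w := by
    rw [Finset.card_image_of_injOn, hD]
    intro a ha b hb hab
    have ha' : a ≤ M := Nat.divisor_le (Finset.mem_coe.mp ha)
    have hb' : b ≤ M := Nat.divisor_le (Finset.mem_coe.mp hb)
    have := (ZMod.natCast_eq_natCast_iff' _ _ r).mp hab
    rwa [Nat.mod_eq_of_lt (by omega), Nat.mod_eq_of_lt (by omega)] at this
  have hE' : ((sums Q E (2 * R)).image (fun s : ℕ => (s : ZMod r))).card = e :=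
    card_image_cast r _
  have hcond : r ^ 2 < (M.divisors.image (fun d : ℕ => (d : ZMod r))).card *
      ((sums Q E (2 * R)).image (fun s : ℕ => (s : ZMod r))).card ^ 2 := by
    rw [hA, hE']
    have h2 : r ≤ e * 2 ^ (2 * k + 10) := hr2.trans h1
    have h3 : r ^ 2 ≤ (e * 2 ^ (2 * k + 10)) ^ 2 := Nat.pow_le_pow_left h2 2
    have h4 : (e * 2 ^ (2 * k + 10)) ^ 2 = 2 ^ (4 * k + 20) * e ^ 2 := by
      rw [mul_pow, ← pow_mul]; ring_nf
    have h5 : (2 : ℕ) ^ (4 * k + 20) < 2 ^ w := Nat.pow_lt_pow_right (by norm_num) hkw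
    calc r ^ 2 ≤ 2 ^ (4 * k + 20) * e ^ 2 := by rw [← h4]; exact h3
      _ < 2 ^ w * e ^ 2 := Nat.mul_lt_mul_of_pos_right h5 (by positivity)
  obtain ⟨u, hu, hcov⟩ := cover r _ _ hcond
  obtain ⟨d, hd, rfl⟩ := Finset.mem_image.mp hu
  obtain ⟨e₁, he₁, e₂, he₂, e₃, he₃, e₄, he₄, hsum⟩ := hcov 0
  obtain ⟨s₁, hs₁, rfl⟩ := Finset.mem_image.mp he₁
  obtain ⟨s₂, hs₂, rfl⟩ := Finset.mem_image.mp he₂
  obtain ⟨s₃, hs₃, rfl⟩ := Finset.mem_image.mp he₃
  obtain ⟨s₄, hs₄, rfl⟩ := Finset.mem_image.mp he₄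
  have hdM : d ∣ M := (Nat.mem_divisors.mp hd).1
  have hdvd : r ∣ (s₁ + d * s₂) + (s₃ + d * s₄) := by
    rw [← ZMod.natCast_eq_zero_iff]
    push_cast
    exact hsum.symm
  obtain ⟨Y, hY⟩ := hdvd
  have hpos : 0 < s₁ := by
    have h2R : 2 * R = (2 * R - 1) + 1 := by omega
    rw [h2R] at hs₁
    exact sums_pos (fun x hx => Nat.pos_of_mem_divisors (hE hx)) _ s₁ hs₁
  have hY0 : 0 < Y := by
    rcases Nat.eq_zero_or_pos Y with h0 | h0
    · subst h0; rw [mul_zero] at hY; omega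
    · exact h0
  have hrep := rep_four hQ.pos hM (fun x hx => (Nat.mem_divisors.mp (hE hx)).1) (2 * R) hdM
    hs₁ hs₂ hs₃ hs₄
  rw [hY] at hrep
  exact (Rep.of_mul hY0 hrep).mono (by omega)

end Vale.Agent.P012
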