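import Vale.Agent.P012.Good
import Vale.Agent.P012.Construct

namespace Vale.Agent.P012

open Finset

/-- The covering of the residues modulo the large prime `P` by good numerators. -/
theorem cover_P (k T P N0 C : ℕ) (hP : P.Prime) (hP1 : 2 ^ T < P) (hP2 : P ≤ 2 ^ (T + 1))
    (hT9 : T ≤ 9 * 2 ^ k) (hKT : 2 * k + 13 < T)
    (G : Finset ℕ) (hG1 : ∀ r ∈ G, r ≤ 2 ^ T) (hG2 : ∀ r ∈ G, Rep C N0 r)
    (hG3 : 2 ^ T ≤ 4 * T * G.card) :
    ∃ v : ℕ, 0 < v ∧ v ≤ 2 ^ (2 * k + 13) ∧ ∀ x : ℕ, ∃ y : ℕ, y ≡ x [MOD P] ∧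
      y ≤ 2 ^ (2 * k + 15) * P ∧ Rep (4 * C) (N0 * v) y := by
  have := Fact.mk hP
  obtain ⟨K, hK⟩ : ∃ K : ℕ, K = 2 ^ (2 * k + 13) := ⟨_, rfl⟩
  rw [← hK]
  have hKP : K < P := by
    calc K = 2 ^ (2 * k + 13) := hK
      _ ≤ 2 ^ T := Nat.pow_le_pow_right (by norm_num) hKT.le
      _ < P := hP1
  have hA : ((Finset.Icc 1 K).image (fun v : ℕ => (v : ZMod P))).card = K := by
    rw [Finset.card_image_of_injOn, Nat.card_Icc, Nat.add_sub_cancel]
    intro a ha b hb hab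
    simp only [Finset.coe_Icc, Set.mem_Icc] at ha hb
    have := (ZMod.natCast_eq_natCast_iff' _ _ P).mp hab
    rwa [Nat.mod_eq_of_lt (by omega), Nat.mod_eq_of_lt (by omega)] at this
  have hE : (G.image (fun r : ℕ => (r : ZMod P))).card = G.card := by
    rw [Finset.card_image_of_injOn]
    intro a ha b hb hab
    have ha' := hG1 a ha
    have hb' := hG1 b hb
    have := (ZMod.natCast_eq_natCast_iff' _ _ P).mp hab
    rwa [Nat.mod_eq_of_lt (by omega), Nat.mod_eq_of_lt (by omega)] at this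
  have hg0 : 0 < G.card := by
    rcases Nat.eq_zero_or_pos G.card with h0 | h0
    · rw [h0, mul_zero] at hG3
      have : 0 < 2 ^ T := by positivity
      omega
    · exact h0
  have hcond : P ^ 2 < ((Finset.Icc 1 K).image (fun v : ℕ => (v : ZMod P))).card *
      (G.image (fun r : ℕ => (r : ZMod P))).card ^ 2 := by
    rw [hA, hE]
    set g := G.card with hg
    have h1 : P ≤ 8 * T * g := by
      calc P ≤ 2 ^ (T + 1) := hP2
        _ = 2 * 2 ^ T := by rw [pow_succ]; ring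
        _ ≤ 2 * (4 * T * g) := Nat.mul_le_mul_left _ hG3
        _ = 8 * T * g := by ring
    have h2 : P ^ 2 ≤ (8 * T * g) ^ 2 := Nat.pow_le_pow_left h1 2
    have h3 : (8 * T * g) ^ 2 = 64 * (T * T) * g ^ 2 := by ring
    have h4 : T * T ≤ (9 * 2 ^ k) * (9 * 2 ^ k) := Nat.mul_le_mul hT9 hT9
    have h5 : 64 * (T * T) < K := by
      have h6 : (9 * 2 ^ k) * (9 * 2 ^ k) = 81 * (2 ^ k * 2 ^ k) := by ring
      have h7 : K = 8192 * (2 ^ k * 2 ^ k) := by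
        rw [hK, pow_add, two_mul, pow_add]; ring
      have h8 : 1 ≤ 2 ^ k * 2 ^ k := Nat.mul_pos Nat.one_le_two_pow Nat.one_le_two_pow
      omega
    have h9 : 0 < g ^ 2 := Nat.pow_pos hg0
    rw [h3] at h2
    exact lt_of_le_of_lt h2 (Nat.mul_lt_mul_of_pos_right h5 h9)
  obtain ⟨u, hu, hcov⟩ := cover P _ _ hcond
  obtain ⟨v, hv, rfl⟩ := Finset.mem_image.mp hu
  rw [Finset.mem_Icc] at hv
  refine ⟨v, by omega, hv.2, ?_⟩
  intro x
  obtain ⟨e₁, he₁, e₂, he₂, e₃, he₃, e₄, he₄, hsum⟩ := hcov (x : ZMod P)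
  obtain ⟨r₁, hr₁, rfl⟩ := Finset.mem_image.mp he₁
  obtain ⟨r₂, hr₂, rfl⟩ := Finset.mem_image.mp he₂
  obtain ⟨r₃, hr₃, rfl⟩ := Finset.mem_image.mp he₃
  obtain ⟨r₄, hr₄, rfl⟩ := Finset.mem_image.mp he₄
  refine ⟨(r₁ + v * r₂) + (r₃ + v * r₄), ?_, ?_, ?_⟩
  · rw [← ZMod.natCast_eq_natCast_iff]
    push_cast
    exact hsum.symm
  · have b1 : r₁ ≤ P := (hG1 r₁ hr₁).trans hP1.le
    have b3 : r₃ ≤ P := (hG1 r₃ hr₃).trans hP1.le
    have b2 : v * r₂ ≤ K * P := Nat.mul_le_mul hv.2 ((hG1 r₂ hr₂).trans hP1.le)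
    have b4 : v * r₄ ≤ K * P := Nat.mul_le_mul hv.2 ((hG1 r₄ hr₄).trans hP1.le)
    have h7 : (2 : ℕ) ^ (2 * k + 15) = 4 * K := by
      rw [hK, show 2 * k + 15 = (2 * k + 13) + 2 by ring, pow_add]; ring
    have h8 : 1 ≤ K := by rw [hK]; exact Nat.one_le_two_pow
    rw [h7]
    have h9 : P ≤ K * P := Nat.le_mul_of_pos_left _ h8
    have h10 : 4 * K * P = K * P + K * P + K * P + K * P := by ring
    omega
  · have hv0 : 0 < v := by omega
    have key1 : ∀ r ∈ G, Rep C (N0 * v) r := fun r hr => (hG2 r hr).mul_left hv0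
    have key2 : ∀ r ∈ G, Rep C (N0 * v) (v * r) := fun r hr => (hG2 r hr).mul_both hv0
    have := ((key1 r₁ hr₁).add (key2 r₂ hr₂)).add ((key1 r₃ hr₃).add (key2 r₄ hr₄))
    exact this.mono (by omega)

theorem two_pow_gt (k : ℕ) (hk : 12 ≤ k) : 8 * k ^ 2 + 40 * k < 2 ^ k := by
  induction k, hk using Nat.le_induction with
  | base => norm_num
  | succ n hn ih =>
    rw [pow_succ 2 n]
    nlinarith

theorem range_theorem (k : ℕ) (hk : 12 ≤ k) :
    ∃ T R : ℕ, 8 * 2 ^ k ≤ T ∧ T ≤ 9 * 2 ^ k ∧ R ≤ 17 * k ∧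
      ∀ a b : ℕ, 0 < b → a * 2 ^ (3 * T) ≤ b → b ≤ 2 ^ (32 * T) →
        UF (2 * (32 * (4 * (8 * R)) + (2 * k + 17 + 1))) ((a : ℚ) / b) := by
  set w := Nat.primeCounting (2 ^ k) with hw
  have hpow := two_pow_gt k hk
  have hk2 : 12 * 12 ≤ k ^ 2 := by
    rw [sq]; exact Nat.mul_le_mul hk hk
  have hcheb : 2 ^ k ≤ 2 * k * w := two_pow_le_primeCounting k (by omega)
  have hwk : w ≤ 2 ^ k := by
    rw [hw, ← Nat.primesLE_card_eq_primeCounting]
    have h1 : Nat.primesLE (2 ^ k) ⊆ Finset.Icc 1 (2 ^ k) := by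
      intro p hp
      rw [Finset.mem_Icc]
      exact ⟨(Nat.prime_of_mem_primesLE hp).one_lt.le, Nat.le_of_mem_primesLE hp⟩
    have := Finset.card_le_card h1
    rwa [Nat.card_Icc, Nat.add_sub_cancel] at this
  have hkw : 4 * k + 20 < w := by
    by_contra hcon
    push Not at hcon
    have h1 : 2 * k * w ≤ 2 * k * (4 * k + 20) := Nat.mul_le_mul_left _ hcon
    have h2 : 2 * k * (4 * k + 20) = 8 * k ^ 2 + 40 * k := by ring
    omega
  have hw0 : 0 < w := by omega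
  set M := primorial (2 ^ k) with hM
  have hM0 : 0 < M := primorial_pos _
  have hMle : M ≤ 2 ^ (2 * 2 ^ k) := by
    have := primorial_le_four_pow (2 ^ k)
    rwa [show (4 : ℕ) = 2 ^ 2 by norm_num, ← pow_mul] at this
  have hD : M.divisors.card = 2 ^ w := card_divisors_primorial _
  obtain ⟨Q, hQ, hQw, E, hED, hEinj, hEcard⟩ :=
    find_Q k w M (by omega) hwk (by omega) hMle hD
  -- the number of digits
  set R := 8 * 2 ^ k / w + 1 with hR
  set T := w * R with hT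
  have hdm := Nat.div_add_mod (8 * 2 ^ k) w
  have hml := Nat.mod_lt (8 * 2 ^ k) hw0
  have hTexp : T = w * (8 * 2 ^ k / w) + w := by rw [hT, hR]; ring
  have hT8 : 8 * 2 ^ k ≤ T := by omega
  have hT9 : T ≤ 9 * 2 ^ k := by
    have : w * (8 * 2 ^ k / w) ≤ 8 * 2 ^ k := Nat.mul_div_le _ _
    omega
  have hR1 : 1 ≤ R := by rw [hR]; exact Nat.succ_pos _
  have hR17 : R ≤ 17 * k := by
    have h1 : 8 * 2 ^ k / w ≤ 16 * k := by
      apply Nat.div_le_of_le_mul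
      calc 8 * 2 ^ k ≤ 8 * (2 * k * w) := Nat.mul_le_mul_left _ hcheb
        _ = w * (16 * k) := by ring
    omega
  refine ⟨T, R, hT8, hT9, hR17, ?_⟩
  -- the set of sums
  set S := sums Q E (2 * R) with hS
  have hScard : 2 ^ T ≤ S.card := by
    rw [hS, card_sums hQ.pos hEinj, hT, pow_mul, pow_mul]
    exact Nat.pow_le_pow_left hEcard R
  have hQT : Q ^ (2 * R) ≤ 2 ^ (2 * T) := by
    calc Q ^ (2 * R) ≤ (2 ^ w) ^ (2 * R) := Nat.pow_le_pow_left hQw _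
      _ = 2 ^ (2 * T) := by rw [← pow_mul, hT]; ring_nf
  have hSbound : ∀ s ∈ S, s < 2 ^ (3 * T) := by
    intro s hs
    have h1 := sums_bound hQ.two_le (E := E) (M := M)
      (fun e he => Nat.divisor_le (hED he)) (2 * R) s hs
    have h2 : M * Q ^ (2 * R) ≤ 2 ^ (2 * 2 ^ k) * 2 ^ (2 * T) := Nat.mul_le_mul hMle hQT
    have h3 : 2 ^ (2 * 2 ^ k) * 2 ^ (2 * T) ≤ 2 ^ (3 * T) := by
      rw [← pow_add]
      exact Nat.pow_le_pow_right (by norm_num) (by omega)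
    omega
  have hT1 : 1 ≤ T := by
    have : 1 ≤ 2 ^ k := Nat.one_le_two_pow
    omega
  have hgood := many_good_primes T (3 * T) hT1 S hSbound hScard (two_pow_le_primeCounting T hT1)
  set G := (Finset.range (2 ^ T + 1)).filter (fun q => q.Prime ∧
      2 ^ T ≤ (S.image (fun s => s % q)).card * (1 + 4 * T * (3 * T))) with hG
  set N1 := M * M * Q ^ (2 * R) with hN1
  have hN1pos : 0 < N1 := by
    have := hQ.pos
    positivity
  have hk6 : 2 * k + 10 < 6 * 2 ^ k := by omega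
  have hGrep : ∀ r ∈ G, Rep (8 * R) N1 r := by
    intro r hr
    rw [hG, Finset.mem_filter, Finset.mem_range] at hr
    exact good_rep k w M Q R T E hQ hM0 hMle hD hED hk6 hT8 hT9 hkw hR1 r hr.2.1 (by omega)
      hr.2.2
  -- the large prime
  obtain ⟨P, hP, hP1, hP2⟩ := Nat.exists_prime_lt_and_le_two_mul (2 ^ T) (by positivity)
  have hP2' : P ≤ 2 ^ (T + 1) := by rw [pow_succ]; omega
  obtain ⟨v, hv0, hvK, hcov⟩ := cover_P k T P N1 (8 * R) hP hP1 hP2' hT9 (by omega) G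
    (fun r hr => by
      rw [hG, Finset.mem_filter, Finset.mem_range] at hr
      omega) hGrep hgood
  set N2 := N1 * v with hN2
  have hN2pos : 0 < N2 := Nat.mul_pos hN1pos hv0
  have hall := rep_all P (2 ^ (2 * k + 15)) (4 * (8 * R)) N2 (2 * k + 17) 32 hP.two_le hN2pos
    (by positivity) (by
      have : 4 * 2 ^ (2 * k + 15) = 2 ^ (2 * k + 17) := by
        rw [show 2 * k + 17 = (2 * k + 15) + 2 by ring, pow_add]; ring
      rw [this]
      exact Nat.pow_lt_pow_right (by norm_num) (by omega)) hcov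
  intro a b hb ha hbT
  have hPJ : 0 < P ^ 32 := Nat.pow_pos hP.pos
  have hbP : b ≤ P ^ 32 := by
    calc b ≤ 2 ^ (32 * T) := hbT
      _ = (2 ^ T) ^ 32 := by rw [← pow_mul]; ring_nf
      _ ≤ P ^ 32 := Nat.pow_le_pow_left hP1.le 32
  have hN2le : N2 * 2 ^ (2 * k + 17) ≤ 2 ^ (3 * T) := by
    have h1 : M * M ≤ 2 ^ (4 * 2 ^ k) := by
      calc M * M ≤ 2 ^ (2 * 2 ^ k) * 2 ^ (2 * 2 ^ k) := Nat.mul_le_mul hMle hMle
        _ = 2 ^ (4 * 2 ^ k) := by rw [← pow_add]; ring_nf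
    have h2 : N1 ≤ 2 ^ (4 * 2 ^ k) * 2 ^ (2 * T) := Nat.mul_le_mul h1 hQT
    have h3 : N2 ≤ 2 ^ (4 * 2 ^ k) * 2 ^ (2 * T) * 2 ^ (2 * k + 13) := Nat.mul_le_mul h2 hvK
    calc N2 * 2 ^ (2 * k + 17)
        ≤ 2 ^ (4 * 2 ^ k) * 2 ^ (2 * T) * 2 ^ (2 * k + 13) * 2 ^ (2 * k + 17) :=
          Nat.mul_le_mul_right _ h3
      _ = 2 ^ (4 * 2 ^ k + 2 * T + (2 * k + 13) + (2 * k + 17)) := by
          rw [pow_add 2 (4 * 2 ^ k + 2 * T + (2 * k + 13)), pow_add 2 (4 * 2 ^ k + 2 * T),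
            pow_add 2 (4 * 2 ^ k)]
      _ ≤ 2 ^ (3 * T) := Nat.pow_le_pow_right (by norm_num) (by omega)
  apply uf_of_rep (32 * (4 * (8 * R)) + (2 * k + 17 + 1)) (N2 * 2 ^ (2 * k + 17) * P ^ 32)
    (P ^ 32) (by positivity) hall a b hb hbP
  calc a * (N2 * 2 ^ (2 * k + 17) * P ^ 32) = (a * (N2 * 2 ^ (2 * k + 17))) * P ^ 32 := by ring
    _ ≤ (a * 2 ^ (3 * T)) * P ^ 32 := by
        apply Nat.mul_le_mul_right
        exact Nat.mul_le_mul_left _ hN2le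
    _ ≤ b * P ^ 32 := Nat.mul_le_mul_right _ ha

end Vale.Agent.P012
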