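import Vale.Agent.P012.UF

namespace Vale.Agent.P012

/-- `s / (N m)` is a sum of at most `k` unit fractions for every `m ≥ 1`. -/
def Rep (k N s : ℕ) : Prop := ∀ m : ℕ, 0 < m → UF k ((s : ℚ) / ((N : ℚ) * m))

theorem Rep.zero (k N : ℕ) : Rep k N 0 := by
  intro m _
  simpa using UF.mono UF.zero (Nat.zero_le k)

theorem Rep.mono {k l N s : ℕ} (h : Rep k N s) (hkl : k ≤ l) : Rep l N s :=
  fun m hm => (h m hm).mono hkl

theorem Rep.add {k l N s t : ℕ} (hs : Rep k N s) (ht : Rep l N t) : Rep (k + l) N (s + t) := by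
  intro m hm
  have := (hs m hm).add (ht m hm)
  rwa [← add_div, ← Nat.cast_add] at this

theorem Rep.of_dvd {N d : ℕ} (hN : 0 < N) (hd : d ∣ N) : Rep 1 N d := by
  intro m hm
  obtain ⟨c, rfl⟩ := hd
  have hd0 : 0 < d := Nat.pos_of_mul_pos_right hN |> fun h => by
    rcases Nat.eq_zero_or_pos d with h0 | h0
    · subst h0; simp at hN
    · exact h0
  have hc0 : 0 < c := by
    rcases Nat.eq_zero_or_pos c with h0 | h0
    · subst h0; simp at hN
    · exact h0
  have h := UF.unit (n := c * m) (Nat.mul_pos hc0 hm)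
  have e : ((d : ℕ) : ℚ) / (((d * c : ℕ) : ℚ) * m) = 1 / ((c * m : ℕ) : ℚ) := by
    have h1 : (d : ℚ) ≠ 0 := by exact_mod_cast hd0.ne'
    have h2 : (c : ℚ) ≠ 0 := by exact_mod_cast hc0.ne'
    have h3 : (m : ℚ) ≠ 0 := by exact_mod_cast hm.ne'
    push_cast
    field_simp
  rw [e]; exact h

theorem Rep.mul_left {k N s : ℕ} (h : Rep k N s) {c : ℕ} (hc : 0 < c) : Rep k (N * c) s := by
  intro m hm
  have := h (c * m) (Nat.mul_pos hc hm)
  have e : ((s : ℕ) : ℚ) / (((N * c : ℕ) : ℚ) * m) = (s : ℚ) / ((N : ℚ) * ((c * m : ℕ) : ℚ)) := by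
    push_cast; ring_nf
  rw [e]; exact this

theorem Rep.of_dvd_modulus {k N N' s : ℕ} (h : Rep k N s) (hd : N ∣ N') (hN' : 0 < N') :
    Rep k N' s := by
  obtain ⟨c, rfl⟩ := hd
  apply h.mul_left
  rcases Nat.eq_zero_or_pos c with h0 | h0
  · subst h0; simp at hN'
  · exact h0

theorem Rep.mul_both {k N s : ℕ} (h : Rep k N s) {c : ℕ} (hc : 0 < c) :
    Rep k (N * c) (c * s) := by
  intro m hm
  have := h m hm
  have h1 : (c : ℚ) ≠ 0 := by exact_mod_cast hc.ne'
  have e : ((c * s : ℕ) : ℚ) / (((N * c : ℕ) : ℚ) * m) = (s : ℚ) / ((N : ℚ) * m) := by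
    push_cast
    rw [show (N : ℚ) * c * m = c * (N * m) by ring, mul_div_mul_left _ _ h1]
  rw [e]; exact this

/-- The key point: a numerator which divides a sum of few divisors is good. -/
theorem Rep.of_mul {k N s : ℕ} {Y : ℕ} (hY : 0 < Y) (h : Rep k N (s * Y)) : Rep k N s := by
  intro m hm
  have := h (m * Y) (Nat.mul_pos hm hY)
  have h1 : (Y : ℚ) ≠ 0 := by exact_mod_cast hY.ne'
  have e : ((s : ℕ) : ℚ) / (((N : ℕ) : ℚ) * m) =
      ((s * Y : ℕ) : ℚ) / ((N : ℚ) * ((m * Y : ℕ) : ℚ)) := by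
    push_cast
    rw [← mul_assoc, mul_div_mul_right _ _ h1]
  rw [e]; exact this

/-- Binary expansions. -/
theorem Rep.binary (c : ℕ) (hc : 0 < c) (h : ℕ) :
    ∀ x : ℕ, x < 2 ^ (h + 1) → Rep (h + 1) (c * 2 ^ h) x := by
  induction h with
  | zero =>
    intro x hx
    have hx2 : x < 2 := by simpa using hx
    interval_cases x
    · exact Rep.zero _ _
    · apply Rep.of_dvd
      · positivity
      · exact one_dvd _
  | succ h ih =>
    intro x hx
    have h1 : x / 2 < 2 ^ (h + 1) := by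
      rw [Nat.div_lt_iff_lt_mul (by norm_num)]
      calc x < 2 ^ (h + 1 + 1) := hx
        _ = 2 ^ (h + 1) * 2 := by rw [pow_succ]
    have h2 := (ih (x / 2) h1).mul_both (c := 2) (by norm_num)
    have e : c * 2 ^ h * 2 = c * 2 ^ (h + 1) := by rw [pow_succ]; ring
    rw [e] at h2
    have h3 : Rep 1 (c * 2 ^ (h + 1)) (x % 2) := by
      rcases Nat.mod_two_eq_zero_or_one x with h0 | h0
      · rw [h0]; exact Rep.zero _ _
      · rw [h0]; exact Rep.of_dvd (by positivity) (one_dvd _)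
    have h4 := h2.add h3
    rwa [Nat.div_add_mod] at h4

end Vale.Agent.P012
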