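import Mathlib.Algebra.Order.BigOperators.Group.Multiset
import Mathlib.Data.Rat.Cast.Order
import Mathlib.Tactic

namespace Vale.Agent.P012

def UF (k : ℕ) (x : ℚ) : Prop :=
  ∃ s : Multiset ℕ, s.card ≤ k ∧ (∀ n ∈ s, 0 < n) ∧ (s.map (fun n : ℕ => (1 : ℚ) / n)).sum = x

theorem UF.zero : UF 0 0 := ⟨0, by simp, by simp, by simp⟩

theorem UF.unit {n : ℕ} (hn : 0 < n) : UF 1 ((1 : ℚ) / n) :=
  ⟨{n}, by simp, by simpa using hn, by simp⟩

theorem UF.mono {k l : ℕ} {x : ℚ} (h : UF k x) (hkl : k ≤ l) : UF l x := by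
  obtain ⟨s, h1, h2, h3⟩ := h
  exact ⟨s, h1.trans hkl, h2, h3⟩

theorem UF.add {k l : ℕ} {x y : ℚ} (hx : UF k x) (hy : UF l y) : UF (k + l) (x + y) := by
  obtain ⟨s, hs1, hs2, hs3⟩ := hx
  obtain ⟨t, ht1, ht2, ht3⟩ := hy
  refine ⟨s + t, ?_, ?_, ?_⟩
  · rw [Multiset.card_add]; omega
  · intro n hn
    rcases Multiset.mem_add.mp hn with h | h
    · exact hs2 n h
    · exact ht2 n h
  · rw [Multiset.map_add, Multiset.sum_add, hs3, ht3]

theorem UF.div {k : ℕ} {x : ℚ} (hx : UF k x) {m : ℕ} (hm : 0 < m) : UF k (x / m) := by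
  obtain ⟨s, hs1, hs2, hs3⟩ := hx
  refine ⟨s.map (fun n => n * m), ?_, ?_, ?_⟩
  · rwa [Multiset.card_map]
  · intro n hn
    obtain ⟨a, ha, rfl⟩ := Multiset.mem_map.mp hn
    exact Nat.mul_pos (hs2 a ha) hm
  · rw [Multiset.map_map, ← hs3, div_eq_mul_inv, ← Multiset.sum_map_mul_right]
    congr 1
    apply Multiset.map_congr rfl
    intro n _
    simp only [Function.comp, Nat.cast_mul]
    rw [one_div, one_div, mul_inv]

end Vale.Agent.P012
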